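import Vale.Agent.N338X.QNet
import Vale.Agent.N338.Net

/-!
P338, shared side wires (6): the complex network on `2 ^ 47` wires, and the two networks.
-/

namespace Vale.Agent.N338X

open Vale.Agent.P338Z Vale.Agent.P338Z.Net Vale.Agent.P338Z.Des Vale.Agent.P338Z.Net.Cn Matrix

theorem orth_pq {ι : Type} [Fintype ι] [DecidableEq ι] {p q : ι → ZMod 2} (hp : p ⬝ᵥ p = 0)
    (hq : q ⬝ᵥ q = 0) (h : p ⬝ᵥ q = 0) : Orth fun u => ce u + q u • p + p u • q := fun u v => by
  rw [← orth_ce u v]
  simp only [add_dotProduct, dotProduct_add, smul_dotProduct, dotProduct_smul, hp, hq, h,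
    dotProduct_comm q p, smul_eq_mul, ce_dot _ p, ce_dot _ q]
  rw [dot_ce v p, dot_ce v q]
  have h : ∀ a b c d e : ZMod 2, a + b * c + d * e + e * (d + b * 0 + d * 0) +
      c * (b + b * 0 + d * 0) = a := by decide
  exact h _ _ _ _ _

/-- The points. -/
abbrev CP : Type := Bool × Fin 24

/-- The families. -/
abbrev CF : Type := Bool × {p : Fin 23 × Fin 23 // p.1 < p.2}

/-- The indices. -/
abbrev CX : Type := CF × Fin 24

/-- The common pair of a family. -/
def cpair (φ : CF) : Finset CP := {(φ.1, φ.2.1.1.castSucc), (φ.1, φ.2.1.2.castSucc)}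

theorem card_cpair (φ : CF) : (cpair φ).card = 2 :=
  Finset.card_pair fun e => φ.2.2.ne (Fin.castSucc_injective _ (Prod.ext_iff.1 e).2)

theorem not_cpair (φ : CF) (x : Fin 24) : (!φ.1, x) ∉ cpair φ := by simp [cpair]

/-- The triples. -/
def ctr (s : CX) : Tr CP := ⟨insert (!s.1.1, s.2) (cpair s.1), by
  rw [Finset.card_insert_of_notMem (not_cpair _ _), card_cpair]⟩

theorem ctr_inj : Function.Injective ctr := by
  rintro ⟨⟨β, ⟨a, b⟩, h⟩, x⟩ ⟨⟨β', ⟨a', b'⟩, h'⟩, x'⟩ e
  have e' := Finset.ext_iff.1 (congrArg Subtype.val e)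
  have e1 := (e' (β, a.castSucc)).1 (by simp [ctr, cpair])
  have e2 := (e' (β, b.castSucc)).1 (by simp [ctr, cpair])
  have e3 := (e' (!β, x)).1 (by simp [ctr, cpair])
  simp only [ctr, cpair, Finset.mem_insert, Finset.mem_singleton, Prod.mk.injEq, Fin.ext_iff,
    Fin.val_castSucc, Fin.lt_def, Subtype.mk.injEq] at e1 e2 e3 h h' ⊢
  cases β <;> cases β' <;> simp at e1 e2 e3 ⊢ <;> omega

theorem exists_ccf (φ : CF) : ∃ l : List (CL CP), l.length = 24 ∧ (∀ a ∈ l, a ⬝ᵥ a = 1) ∧
    CDec (((Finset.univ : Finset (Fin 24)).toList.map fun j => ind (ZMod 2) (ctr (φ, j)).1) ++ l) := by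
  let q : CP → ZMod 2 := fun u => if u.1 = φ.1 then 0 else 1
  have hb := orth_pq (p := ind (ZMod 2) (cpair φ)) (q := q)
    (by rw [ind_dot, Finset.inter_self, card_cpair]; rfl)
    (by rcases φ with ⟨_ | _, p⟩ <;> simp [q, dotProduct, Fintype.sum_prod_type] <;> rfl)
    (Finset.sum_eq_zero fun u _ => by
      by_cases h : u ∈ cpair φ
      · have : u.1 = φ.1 := by
          simp only [cpair, Finset.mem_insert, Finset.mem_singleton] at h
          rcases h with rfl | rfl <;> rfl
        simp [q, this]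
      · simp [ind, h])
  have h1 : ∀ j, ind (ZMod 2) (ctr (φ, j)).1 = ce (!φ.1, j) + q (!φ.1, j) • ind (ZMod 2) (cpair φ) +
      ind (ZMod 2) (cpair φ) (!φ.1, j) • q := fun j => by
    ext u
    by_cases h : u = (!φ.1, j)
    · simp [h, ind, ctr, ce, not_cpair]
    · simp [h, ind, ctr, ce, not_cpair, q]
  refine ⟨(Finset.univ : Finset (Fin 24)).toList.map fun j => ce (φ.1, j) +
    q (φ.1, j) • ind (ZMod 2) (cpair φ) + ind (ZMod 2) (cpair φ) (φ.1, j) • q, by simp, ?_,
    fun η => ?_⟩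
  · intro a ha
    obtain ⟨k, -, rfl⟩ := List.mem_map.1 ha
    exact (hb _ _).trans (if_pos rfl)
  · rw [List.map_append, List.sum_append, List.map_map, List.map_map, Finset.sum_map_toList,
      Finset.sum_map_toList, ← hb.wt η, Fintype.sum_prod_type, Fintype.sum_bool]
    simp only [h1, Function.comp_def]
    rcases φ with ⟨_ | _, p⟩
    · rfl
    · exact add_comm _ _

/-- The pairs which need a side wire. -/
abbrev CA : Type := {x : CX × CX // ((ctr x.1).1 ∩ (ctr x.2).1).card % 2 = 0}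

theorem card_CF : Fintype.card CF = 506 := by
  rw [Fintype.card_prod, Fintype.card_bool, Fintype.card_subtype]
  decide +kernel

theorem card_CA : Fintype.card CA ≤ 12144 * 12144 :=
  (Fintype.card_subtype_le _).trans (le_of_eq (by
    rw [Fintype.card_prod, Fintype.card_prod, card_CF, Fintype.card_fin]))

theorem cnet47 : ∃ prog : List CI, prog.length < 2 ^ 80 ∧ CNet 47 (48 ^ 3) prog ∧
    (prog.filter fun c => decide (c.1 = 1)).length + 1500723265536 ≤ 2 ^ 47 * 48 ^ 3 := by
  have h48 : Fintype.card CP = 48 := by simp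
  obtain ⟨ε⟩ : Nonempty (Fin (48 ^ 3) ≃ CP × CP × CP) :=
    ⟨Fintype.equivOfCardEq (by
      rw [Fintype.card_fin, Fintype.card_prod, Fintype.card_prod CP, h48]; norm_num)⟩
  choose c1 a1 a2 a3 using fun T : CX => exists_cc1 (by omega) (ctr T)
  choose c2 b1 b2 b3 using fun x : CA => exists_cc2 (by omega) (ctr x.1.1) (ctr x.1.2) x.2
  choose cf d1 d2 d3 using exists_ccf
  rw [h48] at a1 b1
  let D : Dz CX CA (Option CP) (CL CP) (Bool × Bool) := ⟨46, fun T => ind (ZMod 2) (ctr T).1,
    Finset.univ.toList.map ce, c1, c2, fun x => x.1.1, fun x => x.1.2,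
    fun S i => i.elim (some (true, true)) fun i =>
      if i ∈ (ctr S).1 then some (false, true) else none,
    fun i T => i.elim (some (false, false)) fun i =>
      if i ∈ (ctr T).1 then some (false, false) else none,
    fun x => (decide (((ctr x.1.1).1 ∩ (ctr x.1.2).1).card = 2), true), (false, false),
    fun s => (!s.1, s.2), fun a => a ⬝ᵥ a = 1⟩
  have hok : D.Ok := ⟨by simp [D], fun T => by have := a1 T; simp only [D]; omega,
    fun x => by have := b1 x; simp only [D]; omega, fun T => ind_odd _, fun a ha => by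
      obtain ⟨k, -, rfl⟩ := List.mem_map.1 ha
      exact (orth_ce k k).trans (if_pos rfl), a2, b2⟩
  have hsc : D.Sc fun s => csc s.1 s.2 := ⟨by simp [D, csc], fun s => by
      obtain ⟨n, h⟩ := s
      cases n <;> cases h <;> simp [D, csc], fun S T => by
    refine (congrArg₂ (· + ·) ?_ ?_).trans
      ((cscal (ctr S) (ctr T)).trans (if_congr ctr_inj.eq_iff rfl rfl))
    · rw [Fintype.sum_option]
      simp only [D, Option.elim, apply_ite (osc _), ind]
      simp only [osc, csc, mul_ite, ite_mul]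
      simp
      ring
    · refine (sum_pairs (fun x : CX × CX => ((ctr x.1).1 ∩ (ctr x.2).1).card % 2 = 0)
        (fun x => csc (decide (((ctr x.1).1 ∩ (ctr x.2).1).card = 2)) true) S T).trans ?_
      have h6 : ∀ (p : Prop) [Decidable p], csc (decide p) true = if p then -(1 / 2) else 1 / 2 :=
        fun p _ => by by_cases h : p <;> simp [csc, h]
      rw [h6]⟩
  obtain ⟨prog, hwf, hc, hc', hd, hsem⟩ := gen D cf 47 506 24 (12144 * 12144) 49 24 card_CF
    (Fintype.card_fin _) card_CA (by rw [Fintype.card_option, h48]) hok d1 rfl d2 (by norm_num)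
  rw [show D.g = 46 from rfl] at hc
  rw [show D.good = fun a => a ⬝ᵥ a = 1 from rfl] at hwf
  have hcnt : ((prog.map (cc ε)).filter fun c => decide (c.1 = 1)).length + 1500723265536 ≤
      2 ^ 47 * 48 ^ 3 := by
    have h : ∀ l : List (NI ℕ (Bool × Bool) (CL CP × CL CP × CL CP)),
        l.countP ((fun c : CI => decide (c.1 = 1)) ∘ cc ε) + l.countP isD =
          l.countP fun q => !q.isG := fun l => by
      induction l with
      | nil => rfl
      | cons q l ih =>
        rw [List.countP_cons, List.countP_cons, List.countP_cons, ← ih]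
        cases q <;> simp [cc, NI.isG, isD] <;> omega
    have h := h prog
    rw [← List.countP_eq_length_filter, List.countP_map]
    norm_num at hc hd ⊢
    omega
  refine ⟨prog.map (cc ε), ?_, ⟨fun c hc => ?_, fun c hc h0 => ?_, by omega,
    fun M _ _ Φ h0 hadd x w hw => ?_⟩, hcnt⟩
  · rw [List.length_map, List.length_eq_countP_add_countP NI.isG]
    simp only [Bool.not_eq_true, Bool.decide_eq_false]
    norm_num at hc hc' ⊢
    omega
  · obtain ⟨q, hq, rfl⟩ := List.mem_map.1 hc
    have h := hwf q hq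
    cases q with
    | gate i j s => exact ⟨h.1, fun _ => h.2⟩
    | call i n l => exact ⟨h.1, fun h' => absurd h' one_ne_zero⟩
    | dbl i l => exact ⟨h.1, fun h' => absurd h' two_ne_zero⟩
  · obtain ⟨q, hq, rfl⟩ := List.mem_map.1 hc
    exact cc_lab ε (hwf q hq) h0
  · have h := hsem ℂ _ hsc _ _ (fun T => dec_of ε cdec_e (a3 T))
      (fun x => dec_of ε cdec_e (b3 x)) (fun φ => dec_of ε cdec_e (d3 φ)) M Φ h0 hadd x w hw
    rw [show D.e = Finset.univ.toList.map ce from rfl, full_eq] at h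
    rw [List.foldl_map, ← h]
    exact congrFun (List.foldl_ext _ _ _ fun y q hq => crun_cc ε Φ y (hwf q hq)) w

/-- **The networks**: they save a fraction `6.656 / 10 ^ 8` of the calls. -/
theorem nets47 : ∃ (ν : Nets) (lam lc : ℝ), N338.Sv ν lam lc ∧ ν.m ^ 5 ≤ 2 ^ 84 ∧
    lam ≤ (1 - 2 * (3328 / 10 ^ 11)) * ν.m := by
  obtain ⟨Δ, qp, h1, h2, h3, h4, h4'⟩ := qnet47
  obtain ⟨cp, h5, h6, h6'⟩ := cnet47
  refine ⟨⟨47, 48 ^ 3, Δ, 2 ^ 80, qp, cp⟩, (1 - 6656 / 10 ^ 11) * 48 ^ 3,
    (1 - 4 / 10 ^ 8) * 48 ^ 3, ⟨⟨h4, h6, h1, h2, by norm_num, by norm_num, by norm_num,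
      by norm_num, rfl, h3, h5⟩, ?_, ?_, by norm_num, ?_, by norm_num, by norm_num⟩, by norm_num,
      by norm_num⟩
  · have h : (((qp.filter fun c => !c.1).length : ℕ) : ℝ) + 1038654410752 ≤ 2 ^ 47 * 48 ^ 3 := by
      exact_mod_cast h4'
    show (((qp.filter fun c => !c.1).length : ℕ) : ℝ) ≤ _ * 2 ^ 47
    norm_num at h ⊢
    linarith
  · have h : (((cp.filter fun c => decide (c.1 = 1)).length : ℕ) : ℝ) + 1500723265536 ≤
        2 ^ 47 * 48 ^ 3 := by
      exact_mod_cast h6'
    show (((cp.filter fun c => decide (c.1 = 1)).length : ℕ) : ℝ) ≤ _ * 2 ^ 47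
    norm_num at h ⊢
    linarith
  · unfold lamR
    norm_num

end Vale.Agent.N338X
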