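import Vale.Agent.N338X.Stage

/-!
P338, shared side wires (3): the generic network.
-/

namespace Vale.Agent.N338X

open Sum Vale.Agent.P338Z.Net

variable {F J A K L σ R G M : Type} {n : ℕ}

section sums

variable [AddCommGroup G] {ρ : L → L → L → G} {e l l' : List L}

theorem lift3 {f : L → L → G} (h : ∀ c, (l.map fun b => f b c).sum = (e.map fun b => f b c).sum)
    (k : List L) :
    (l.map fun b => (k.map (f b)).sum).sum = (e.map fun b => (k.map (f b)).sum).sum := by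
  induction k with
  | nil => simp
  | cons c k ih => simp only [List.map_cons, List.sum_cons, List.sum_map_add, ih, h]

theorem dec_app (h : Dec ρ e (l ++ l')) (b c : List L) :
    n3 ρ l' b c = n3 ρ e b c - n3 ρ l b c ∧ n3 ρ b l' c = n3 ρ b e c - n3 ρ b l c ∧
      n3 ρ b c l' = n3 ρ b c e - n3 ρ b c l := by
  have h1 : n3 ρ (l ++ l') b c = n3 ρ e b c := lift3 (f := fun x y => (c.map fun z => ρ x y z).sum)
    (fun y => lift3 (f := fun x z => ρ x y z) (fun z => (h y z).1) c) b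
  have h2 : n3 ρ b (l ++ l') c = n3 ρ b e c := congrArg List.sum (List.map_congr_left fun x _ =>
    lift3 (f := fun y z => ρ x y z) (fun z => (h x z).2.1) c)
  have h3 : n3 ρ b c (l ++ l') = n3 ρ b c e := congrArg List.sum (List.map_congr_left fun x _ =>
    congrArg List.sum (List.map_congr_left fun y _ => (h x y).2.2))
  rw [← h1, ← h2, ← h3]
  simp only [n3, List.map_append, List.sum_append, List.sum_map_add, add_sub_cancel_left, and_self]

theorem sum_swap {ι : Type} (s : Finset ι) (f : L → ι → G) (k : List L) :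
    (k.map fun x => ∑ i ∈ s, f x i).sum = ∑ i ∈ s, (k.map fun x => f x i).sum := by
  induction k with
  | nil => simp
  | cons c k ih => simp only [List.map_cons, List.sum_cons, ih, Finset.sum_add_distrib]

end sums

/-- Doublings. -/
def isD {ι Λ : Type} : NI ι σ Λ → Bool
  | .dbl _ _ => true
  | _ => false

namespace Dz

variable [Fintype J] (D : Dz (F × J) A K L σ) (cf : F → List L) (n)

/-- The labels of a family. -/
noncomputable def fam (φ : F) : List L := (Finset.univ : Finset J).toList.map fun i => D.t (φ, i)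

/-- The four global changes of the frames. -/
noncomputable def rg : Fin 4 → Gz F J A K n → List (Option Bool × L × L × L)
  | 0 => gz (fun b s => cond b [(none, D.t s.1, D.t s.2.1, D.t s.2.2)] []) (fun _ _ => [])
      (up (p3 D.e D.e D.e))
  | 1 => gz (fun _ s => up (p3 (D.c1 s.1) (D.c1 s.2.1) [D.t s.2.2])) (fun _ _ => []) []
  | 2 => gz (fun _ s => up (p3 (D.c1 s.1) D.e (D.c1 s.2.2) ++
      p3 [D.t s.1] (D.c1 s.2.1) (D.c1 s.2.2))) (fun _ _ => []) []
  | 3 => gz (fun _ _ => []) ![fun p => up (p3 D.e (cf p.1) D.e ++ p3 D.e (D.fam p.1) (cf p.2)),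
      fun p => up (p3 (cf p.1) D.e D.e ++ p3 (D.fam p.1) D.e (cf p.2)),
      fun p => up (p3 (cf p.1) D.e D.e ++ p3 (D.fam p.1) (cf p.2) D.e)] []

variable [Fintype F] [Fintype A] [Fintype K]

/-- The final gates. -/
noncomputable def fin (b s : Bool) : List (NI (Gz F J A K n) σ (L × L × L)) :=
  gs (J := (F × J) × (F × J) × (F × J)) (fun a => inl (b, a)) (fun a => inl (!b, a))
    fun _ => some (D.sg s D.one)

/-- The three stages. -/
noncomputable def main : List (NI (Gz F J A K n) σ (L × L × L)) :=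
  rs (D.rg n cf 0) ++ D.stg n (fun p a => (a, D.t p.1, D.t p.2)) false 0 q0 Finset.univ.toList ++
    rs (D.rg n cf 1) ++ D.stg n (fun p a => (D.t p.1, a, D.t p.2)) true 1 q1 Finset.univ.toList ++
    rs (D.rg n cf 2) ++ D.stg n (fun p a => (D.t p.1, D.t p.2, a)) false 2 q2 Finset.univ.toList ++
    rs (D.rg n cf 3)

/-- The network. -/
noncomputable def all : List (NI (Gz F J A K n) σ (L × L × L)) :=
  D.main n cf ++ D.fin n true false ++ D.fin n false true ++ D.fin n true false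

variable {D cf}

theorem bd_all (hD : D.Ok) {f k a c w : ℕ} (hf : Fintype.card F = f) (hk : Fintype.card J = k)
    (ha : Fintype.card A = a) (hc : Fintype.card K = c) (hw : ∀ φ, (cf φ).length = w)
    (hw' : w + k = D.g + 2) (hg : ∀ φ, ∀ x ∈ cf φ, D.good x) :
    ∃ m, Bd (fun l => D.good l.1 ∧ D.good l.2.1 ∧ D.good l.2.2) (D.all n cf) m
      (12 * (f * k) ^ 2 * (a + f * k * c) + 3 * (f * k) ^ 3) ∧ m + (f * k) ^ 3 =
        (2 * (f * k) ^ 3 + 3 * f ^ 2 * (a + c) + n) * (D.g + 2) ^ 3 +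
          6 * (f * k) ^ 2 * c * (D.g + 2) := by
  have ht : ∀ S, ∀ a ∈ [D.t S], D.good a := fun S a ha => List.mem_singleton.1 ha ▸ hD.gt S
  have he := hD.ge
  have h1 := hD.g1
  have hm : ∀ φ, ∀ x ∈ D.fam φ, D.good x := fun φ x hx => by
    obtain ⟨i, -, rfl⟩ := List.mem_map.1 hx
    exact hD.gt _
  have hl : ∀ φ, (D.fam φ).length = k := fun φ => by simp [fam, hk]
  have hr : ∀ k, Bd (fun l => D.good l.1 ∧ D.good l.2.1 ∧ D.good l.2.2)
      (rs (D.rg n cf k) : List (NI (Gz F J A K n) σ (L × L × L)))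
      (∑ w, (D.rg n cf k w).length) 0 :=
    fun k => bd_rs <| by
      have h0 : ∀ z ∈ ([] : List (Option Bool × L × L × L)),
        D.good z.2.1 ∧ D.good z.2.2.1 ∧ D.good z.2.2.2 := fun z hz => nomatch hz
      have ap := fun {A : L × L × L → Prop} {l l' : List (L × L × L)} (h : ∀ a ∈ l, A a)
        (h' : ∀ a ∈ l', A a) => mem_up (List.forall_mem_append.2 ⟨h, h'⟩)
      fin_cases k <;> rintro (⟨b, s⟩ | ⟨j, p, w⟩ | i)
      · cases b
        · exact h0
        · exact fun z hz => List.mem_singleton.1 hz ▸ ⟨hD.gt _, hD.gt _, hD.gt _⟩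
      · exact h0
      · exact mem_up (mem_p3 he he he)
      · exact mem_up (mem_p3 (h1 _) (h1 _) (ht _))
      · exact h0
      · exact h0
      · exact ap (mem_p3 (h1 _) he (h1 _)) (mem_p3 (ht _) (h1 _) (h1 _))
      · exact h0
      · exact h0
      · exact h0
      · fin_cases j
        exacts [ap (mem_p3 he (hg _) he) (mem_p3 he (hm _) (hg _)),
          ap (mem_p3 (hg _) he he) (mem_p3 (hm _) he (hg _)),
          ap (mem_p3 (hg _) he he) (mem_p3 (hm _) (hg _) he)]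
      · exact h0
  have hf' : ∀ b s, Bd (fun l => D.good l.1 ∧ D.good l.2.1 ∧ D.good l.2.2) (D.fin n b s) 0 _ :=
    fun b s => bd_gs _ (by simp)
  refine ⟨_, ((((((((((hr 0).append (bd_stg hD (fun p a h => ⟨h, hD.gt _, hD.gt _⟩) _ _ _ _)).append
    (hr 1)).append (bd_stg hD (fun p a h => ⟨hD.gt _, h, hD.gt _⟩) _ _ _ _)).append
    (hr 2)).append (bd_stg hD (fun p a h => ⟨hD.gt _, hD.gt _, h⟩) _ _ _ _)).append (hr 3)).append
    (hf' _ _)).append (hf' _ _)).append (hf' _ _)).cast rfl (le_of_eq ?_), ?_⟩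
  · simp [hf, hk, ha, hc]; ring
  · simp [Fintype.sum_prod_type, Fin.sum_univ_three, rg, gz, up, len_p3, hD.le, hD.l1, hf, hk, ha,
      hc, hw, hl]
    zify at hw' ⊢
    linear_combination (3 * f ^ 2 * (a + c) * (D.g + 2) * (D.g + 2 + k) : ℤ) * hw'

theorem dbl_all : Fintype.card ((F × J) × (F × J) × (F × J)) ≤ (D.all n cf).countP isD := by
  have h : ∀ (w : Gz F J A K n) (l : List (Option Bool × L × L × L)),
      (l.map (fi w) : List (NI (Gz F J A K n) σ (L × L × L))).countP isD =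
        l.countP fun z => z.1.isNone := fun w l => by
    rw [List.countP_map]
    refine List.countP_congr ?_
    rintro ⟨_ | _, z⟩ - <;> simp [fi, isD]
  simp only [all, main, List.append_assoc, List.countP_append]
  refine le_trans ?_ (Nat.le_add_right _ _)
  rw [rs, List.countP_flatMap]
  simp only [Function.comp_def, h, Finset.sum_map_toList, Fintype.sum_sum_type]
  refine le_trans (le_of_eq ?_) (Nat.le_add_right _ _)
  simp [Fintype.sum_prod_type, rg, gz, mul_assoc]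

variable [CommRing R] [AddCommGroup G] [AddCommGroup M] [Module R M] [DecidableEq F]
  [DecidableEq J] [DecidableEq (Gz F J A K n)]

theorem ex_all (C : Cx σ (L × L × L) R G M) (hS : D.Sc C.sc) {ρ : L → L → L → G}
    (hρ : C.ρ = fun l => ρ l.1 l.2.1 l.2.2) (d1 : ∀ T, Dec ρ D.e (D.t T :: D.c1 T))
    (d2 : ∀ x, Dec ρ D.e (D.t (D.sa x) :: D.t (D.ta x) :: D.c2 x))
    (d3 : ∀ φ, Dec ρ D.e (D.fam φ ++ cf φ)) (x : Gz F J A K n → M) :
    C.ex (D.all n cf) x = fun w => C.Φ (full ρ D.e) (x w) := by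
  set N := n3 ρ with hN
  have t1 := fun T b c => ((d1 T).tri b c).1
  have t2 := fun T b c => ((d1 T).tri b c).2.1
  have t3 := fun T b c => ((d1 T).tri b c).2.2
  have f1 := fun T b c => (dec_app (d3 T) b c).1
  have f2 := fun T b c => (dec_app (d3 T) b c).2.1
  have f3 := fun T b c => (dec_app (d3 T) b c).2.2
  have n1 : ∀ a b c, ρ a b c = N [a] [b] [c] := fun a b c => by simp [hN, n3]
  have sp : ∀ a b c, ((p3 a b c).map C.ρ).sum = N a b c := fun a b c => by rw [hρ, sum_p3]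
  have two : ∀ x b c, N (D.c2 x) [b] [c] = N D.e [b] [c] -
      ρ (D.t (D.sa x)) b c - ρ (D.t (D.ta x)) b c ∧ N [b] (D.c2 x) [c] = N [b] D.e [c] -
      ρ b (D.t (D.sa x)) c - ρ b (D.t (D.ta x)) c ∧ N [b] [c] (D.c2 x) = N [b] [c] D.e -
      ρ b c (D.t (D.sa x)) - ρ b c (D.t (D.ta x)) := fun x b c => by
    obtain ⟨h1, h2, h3⟩ := d2 x b c
    simp only [hN, n3, List.map_cons, List.map_nil, List.sum_cons, List.sum_nil, add_zero,
      ← h1, ← h2, ← h3]
    exact ⟨by abel, by abel, by abel⟩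
  have m0 : ∀ (l : List L) b c, ((l.map fun a => (a, b, c)).map C.ρ).sum = N l [b] [c] :=
    fun l b c => by simp [hρ, hN, n3, Function.comp_def]
  have m1 : ∀ (l : List L) b c, ((l.map fun a => (b, a, c)).map C.ρ).sum = N [b] l [c] :=
    fun l b c => by simp [hρ, hN, n3, Function.comp_def]
  have m2 : ∀ (l : List L) b c, ((l.map fun a => (b, c, a)).map C.ρ).sum = N [b] [c] l :=
    fun l b c => by simp [hρ, hN, n3, Function.comp_def]
  have hc : ∀ a b c, C.ρ (a, b, c) = N [a] [b] [c] := fun a b c => by rw [hρ, ← n1]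
  let u : (F × J) × (F × J) × (F × J) → G := fun s => N [D.t s.1] [D.t s.2.1] [D.t s.2.2]
  let Fu := N D.e D.e D.e
  let U0 : (F × J) × (F × J) → G := fun p => N D.e [D.t p.1] [D.t p.2]
  let U1 : (F × J) × (F × J) → G := fun p => N [D.t p.1] D.e [D.t p.2]
  let U2 : (F × J) × (F × J) → G := fun p => N [D.t p.1] [D.t p.2] D.e
  let V : (F × J) × (F × J) → G := fun p => N D.e D.e [D.t p.2]
  let W0 : F × F → G := fun p => N D.e (D.fam p.1) (D.fam p.2)
  let W1 : F × F → G := fun p => N (D.fam p.1) D.e (D.fam p.2)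
  let W2 : F × F → G := fun p => N (D.fam p.1) (D.fam p.2) D.e
  have w0 : ∀ p, ∑ r, U0 (pr r p) = W0 p := fun p => by
    simp [U0, W0, hN, n3, fam, pr, Fintype.sum_prod_type, Function.comp_def, sum_swap]
  have w1 : ∀ p, ∑ r, U1 (pr r p) = W1 p := fun p => by
    simp [U1, W1, hN, n3, fam, pr, Fintype.sum_prod_type, Function.comp_def, sum_swap]
  have w2 : ∀ p, ∑ r, U2 (pr r p) = W2 p := fun p => by
    simp [U2, W2, hN, n3, fam, pr, Fintype.sum_prod_type, Function.comp_def]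
  let lo : ((F × J) × (F × J) × (F × J) → G) → Bool → (F × J) × (F × J) × (F × J) → G :=
    fun f b s => cond b (f s + u s) (f s)
  let hi : ((F × J) × (F × J) × (F × J) → G) → Bool → (F × J) × (F × J) × (F × J) → G :=
    fun f b s => cond b (f s) (f s - u s)
  have hr : ∀ (k : Fin 4) (l l' : Gz F J A K n → G),
      (∀ w, l' w = l w + ((D.rg n cf k w).map (fv C.ρ)).sum) →
      C.Tr (rs (D.rg n cf k)) l l' fun y => y := fun k l l' h => Cx.tr_rs _ h
  have r0 := hr 0 (gz (fun b s => cond b (-u s) 0) (fun _ _ => 0) 0)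
      (gz (lo fun _ => 0) (fun _ _ => 0) Fu) (by
    rintro (⟨_ | _, s⟩ | ⟨j, p, w⟩ | i)
    · simp [rg, gz, lo]
    · simp [rg, gz, lo, fv, hc, u]
    · simp [rg, gz]
    · simp [rg, gz, fv_up, sp, Fu])
  have s0 := tr_stage (n := n) hS false 0 q0 (μ := fun p a => (a, D.t p.1, D.t p.2)) (fun _ => 0) U0
    (fun p => m0 ..) (fun p T => by rw [m0, hc]; exact t1 ..)
    (fun p x => by rw [m0, hρ]; exact (two x _ _).1) (d := lo fun _ => 0)
    (d' := hi fun s => U0 s.2) (a := fun _ _ => 0) (a' := ![W0, fun _ => 0, fun _ => 0]) (z := Fu)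
    (fun b p S => by rw [hc, zero_add]; rfl) (fun b p S => by rw [hc]; rfl)
    (fun j p => by fin_cases j <;> simp [w0])
  have r1 := hr 1 (gz (hi fun s => U0 s.2) ![W0, fun _ => 0, fun _ => 0] Fu)
      (gz (lo fun s => V s.2 - U1 (s.1, s.2.2)) ![W0, fun _ => 0, fun _ => 0] Fu) (by
    rintro (⟨_ | _, s⟩ | ⟨j, p, w⟩ | i)
    · simp only [rg, gz, lo, hi, cond, fv_up, sp, t1, t2, hN, V, U0, U1, u]; abel
    · simp only [rg, gz, lo, hi, cond, fv_up, sp, t1, t2, hN, V, U0, U1, u]; abel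
    · simp [rg, gz]
    · simp [rg, gz])
  have s1 := tr_stage (n := n) hS true 1 q1 (μ := fun p a => (D.t p.1, a, D.t p.2))
    (fun p => V p - U1 p) U1 (fun p => m1 ..) (fun p T => by rw [m1, hc]; exact t2 ..)
    (fun p x => by rw [m1, hρ]; exact (two x _ _).2.1)
    (d := lo fun s => V s.2 - U1 (s.1, s.2.2)) (d' := hi fun s => V s.2)
    (a := ![W0, fun _ => 0, fun _ => 0]) (a' := ![W0, W1, fun _ => 0])
    (z := Fu) (fun b p S => by rw [hc, sub_add_cancel]; rfl) (fun b p S => by rw [hc]; rfl)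
    (fun j p => by fin_cases j <;> simp [w1])
  have r2 := hr 2 (gz (hi fun s => V s.2) ![W0, W1, fun _ => 0] Fu)
      (gz (lo fun s => Fu - U2 (s.1, s.2.1)) ![W0, W1, fun _ => 0] Fu) (by
    rintro (⟨_ | _, s⟩ | ⟨j, p, w⟩ | i)
    · simp only [rg, gz, lo, hi, cond, fv_up, List.map_append, List.sum_append, sp, t1, t2, t3, hN,
        V, U2, Fu, u]; abel
    · simp only [rg, gz, lo, hi, cond, fv_up, List.map_append, List.sum_append, sp, t1, t2, t3, hN,
        V, U2, Fu, u]; abel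
    · simp [rg, gz]
    · simp [rg, gz])
  have s2 := tr_stage (n := n) hS false 2 q2 (μ := fun p a => (D.t p.1, D.t p.2, a))
    (fun p => Fu - U2 p) U2 (fun p => m2 ..) (fun p T => by rw [m2, hc]; exact t3 ..)
    (fun p x => by rw [m2, hρ]; exact (two x _ _).2.2)
    (d := lo fun s => Fu - U2 (s.1, s.2.1)) (d' := hi fun _ => Fu)
    (a := ![W0, W1, fun _ => 0]) (a' := ![W0, W1, W2])
    (z := Fu) (fun b p S => by rw [hc, sub_add_cancel]; rfl) (fun b p S => by rw [hc]; rfl)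
    (fun j p => by fin_cases j <;> simp [w2])
  have r3 := hr 3 (gz (hi fun _ => Fu) ![W0, W1, W2] Fu) (gz (hi fun _ => Fu) (fun _ _ => Fu) Fu)
    (by
      rintro (⟨b, s⟩ | ⟨j, p, w⟩ | i)
      · simp [rg, gz]
      · fin_cases j <;> simp [rg, gz, fv_up, sp, f1, f2, f3, hN, W0, W1, W2, Fu]
      · simp [rg, gz])
  have h := ((((((r0.append s0).append r1).append s1).append r2).append s2).append r3)
    fun w => C.Φ (-gz (fun b s => cond b (-u s) 0) (fun _ _ => 0) 0 w) (x w)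
  have hx : C.ph (gz (fun b s => cond b (-u s) 0) (fun _ _ => 0) 0)
      (fun w => C.Φ (-gz (fun b s => cond b (-u s) 0) (fun _ _ => 0) 0 w) (x w)) = x :=
    funext fun w => by rw [Cx.ph, ← C.ha, add_neg_cancel, C.h0]
  rw [hx] at h
  have hf : ∀ b s (y : Gz F J A K n → M), C.ex (D.fin n b s) y =
      gD b y fun a => cond s (-y (inl (!b, a))) (y (inl (!b, a))) := fun b s y => by
    rw [fin, Cx.ex_gs _ (by simp)]
    funext w
    rcases w with ⟨b', a⟩ | w
    · by_cases e : b' = b <;> cases s <;>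
        simp [gD, osc, sg, hS.one, hS.ng, e, @eq_comm _ b b']
    · simp [gD]
  rw [all, Cx.ex_append, Cx.ex_append, Cx.ex_append, main, h, hf, hf, hf]
  funext w
  rcases w with ⟨_ | _, s⟩ | ⟨j, p, w⟩ | i
  · simp [gD, Cx.ph, gz, hi, C.h0]; rfl
  · simp [gD, Cx.ph, gz, hi, C.h0, ← C.ha]; rfl
  · simp [gD, Cx.ph, gz, C.h0]; rfl
  · simp [gD, Cx.ph, gz, C.h0]; rfl

end Dz

/-- The generic network with shared side wires. -/
theorem gen [Fintype F] [Fintype J] [Fintype A] [Fintype K] [DecidableEq F] [DecidableEq J]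
    (D : Dz (F × J) A K L σ) (cf : F → List L) (r f k a c w : ℕ) (hf : Fintype.card F = f)
    (hk : Fintype.card J = k) (ha : Fintype.card A ≤ a) (hc : Fintype.card K = c) (hD : D.Ok)
    (hw : ∀ φ, (cf φ).length = w) (hw' : w + k = D.g + 2) (hg : ∀ φ, ∀ x ∈ cf φ, D.good x)
    (hr : 2 * (f * k) ^ 3 + 3 * f ^ 2 * (a + c) ≤ 2 ^ r) :
    ∃ prog : List (NI ℕ σ (L × L × L)),
      (∀ q ∈ prog, q.Wf (· < 2 ^ r) fun l => D.good l.1 ∧ D.good l.2.1 ∧ D.good l.2.2) ∧
      prog.countP (fun q => !q.isG) + (f * k) ^ 3 =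
        2 ^ r * (D.g + 2) ^ 3 + 6 * (f * k) ^ 2 * c * (D.g + 2) ∧
      prog.countP NI.isG ≤ 12 * (f * k) ^ 2 * (a + f * k * c) + 3 * (f * k) ^ 3 ∧
      (f * k) ^ 3 ≤ prog.countP isD ∧
      ∀ (R : Type) [CommRing R] (sc : σ → R), D.Sc sc →
      ∀ (G : Type) [AddCommGroup G] (ρ : L → L → L → G), (∀ T, Dec ρ D.e (D.t T :: D.c1 T)) →
      (∀ x, Dec ρ D.e (D.t (D.sa x) :: D.t (D.ta x) :: D.c2 x)) →
      (∀ φ, Dec ρ D.e (D.fam φ ++ cf φ)) →
      ∀ (M : Type) [AddCommGroup M] [Module R M] (Φ : G → M →ₗ[R] M), (∀ z, Φ 0 z = z) →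
        (∀ g g' z, Φ (g + g') z = Φ g (Φ g' z)) → ∀ (x : ℕ → M) (w : ℕ), w < 2 ^ r →
          prog.foldl (NI.run sc (fun l => ρ l.1 l.2.1 l.2.2) Φ) x w = Φ (full ρ D.e) (x w) := by
  classical
  obtain ⟨n, hn⟩ := Nat.exists_eq_add_of_le
    (show 2 * (f * k) ^ 3 + 3 * f ^ 2 * (Fintype.card A + c) ≤ 2 ^ r from le_trans (by gcongr) hr)
  have hk' : Fintype.card (Gz F J A K n) = 2 ^ r := by
    rw [hn]; simp [hf, hk, hc]; ring
  let e := Fintype.equivFinOfCardEq hk'
  have hi : Function.Injective fun w => (e w : ℕ) := Fin.val_injective.comp e.injective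
  obtain ⟨m, hB, hm⟩ := Dz.bd_all n hD hf hk rfl hc hw hw' hg
  refine ⟨(D.all n cf).map (NI.map fun w => (e w : ℕ)), fun q hq => ?_, ?_,
    (hB.map hi).cg.trans (by gcongr), ?_, ?_⟩
  · obtain ⟨q, h, rfl⟩ := List.mem_map.1 hq
    exact wf_map hi (fun w => (e w).2) (hB.wf q h)
  · rw [(hB.map hi).cn, hm, hn]
  · have h := Dz.dbl_all (D := D) (cf := cf) n
    rw [List.countP_map, List.countP_congr (q := isD) fun q _ => by cases q <;> rfl]
    refine le_trans (le_of_eq ?_) h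
    simp [hf, hk]; ring
  · intro R _ sc hS G _ ρ d1 d2 d3 M _ _ Φ h0 ha x w hw
    have := (Cx.ex_map (C := ⟨sc, fun l => ρ l.1 l.2.1 l.2.2, Φ, h0, ha⟩) hi (D.all n cf) x).1
      (e.symm ⟨w, hw⟩)
    rw [Dz.ex_all n _ hS rfl d1 d2 d3] at this
    simpa [Cx.ex] using this

end Vale.Agent.N338X
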