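import Vale.Agent.P338Z.Net.Gen4

/-!
P338, shared side wires (1): the invocations, with side wires only for the pairs that need one.
-/

namespace Vale.Agent.N338X

open Sum Vale.Agent.P338Z.Net

/-- A design: `I` data indices, `A` side wires, `K` central wires, `L` labels, `σ` scalars. -/
structure Dz (I A K L σ : Type) where
  /-- `h - 2` -/
  g : ℕ
  /-- the label of an index -/
  t : I → L
  /-- the standard basis -/
  e : List L
  /-- completion of one label -/
  c1 : I → List L
  /-- completion of two labels -/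
  c2 : A → List L
  /-- first index -/
  sa : A → I
  /-- second index -/
  ta : A → I
  /-- from the central wires -/
  J : I → K → Option σ
  /-- to the central wires -/
  G : K → I → Option σ
  /-- from the side wires -/
  E : A → σ
  /-- code of `1` -/
  one : σ
  /-- code of the negative -/
  ng : σ → σ
  /-- property of all labels -/
  good : L → Prop

/-- Wires of the invocations. -/
abbrev Lz (P I A K : Type) : Type := P × ((Bool × I) ⊕ A ⊕ K)

variable {P I A K L σ Λ R G M α : Type}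

/-- Functions on the wires. -/
def lz (d : P → Bool → I → α) (a : P → A → α) (c : P → K → α) : Lz P I A K → α
  | (p, inl (b, S)) => d p b S
  | (p, inr (inl x)) => a p x
  | (p, inr (inr i)) => c p i

namespace Dz

variable (D : Dz I A K L σ) (μ : P → L → Λ) (b : Bool)

/-- Lengths and labels. -/
structure Ok : Prop where
  le : D.e.length = D.g + 2
  l1 : ∀ T, (D.c1 T).length = D.g + 1
  l2 : ∀ x, (D.c2 x).length = D.g
  gt : ∀ T, D.good (D.t T)
  ge : ∀ a ∈ D.e, D.good a
  g1 : ∀ T, ∀ a ∈ D.c1 T, D.good a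
  g2 : ∀ x, ∀ a ∈ D.c2 x, D.good a

/-- The scalar identity. -/
structure Sc [DecidableEq I] [Fintype A] [Fintype K] [CommRing R] (sc : σ → R) : Prop where
  one : sc D.one = 1
  ng : ∀ s, sc (D.ng s) = -sc s
  id : ∀ S T, ∑ i, osc sc (D.J S i) * osc sc (D.G i T) +
    ∑ x, (if D.ta x = T then (if D.sa x = S then sc (D.E x) else 0) else 0) =
      if S = T then 1 else 0

/-- The coefficient of a side wire. -/
def co [DecidableEq I] [Zero R] (sc : σ → R) (S : I) (x : A) : R :=
  if D.sa x = S then sc (D.E x) else 0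

/-- Signed code. -/
def sg (n : Bool) (s : σ) : σ := cond n (D.ng s) s

/-- The six changes of the frames. -/
def rr : Fin 6 → Lz P I A K → List (Option Bool × Λ)
  | 0 => lz (fun _ _ _ => []) (fun p x => up [μ p (D.t (cond b (D.sa x) (D.ta x)))]) fun _ _ => []
  | 1 => lz (fun p b' S => cond b' (up ((D.c1 S).map (μ p))) []) (fun _ _ => [])
      fun p _ => up (D.e.map (μ p))
  | 2 => lz (fun _ _ _ => []) (fun _ _ => []) fun p _ => dn (D.e.map (μ p))
  | 3 => lz (fun p b' S => cond b' [] (up ((D.c1 S).map (μ p))))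
      (fun p x => up ((D.c2 x).map (μ p))) fun _ _ => []
  | 4 => lz (fun _ _ _ => []) (fun _ _ => []) fun p _ => up (D.e.map (μ p))
  | 5 => lz (fun _ _ _ => []) (fun p x => up [μ p (D.t (cond b (D.ta x) (D.sa x)))]) fun _ _ => []

variable [Fintype P] [Fintype I] [Fintype A] [Fintype K]

/-- Side wires to data. -/
noncomputable def gE (n : Bool) : List (NI (Lz P I A K) σ Λ) :=
  gs (J := P × A) (fun k => (k.1, inl (b, D.sa k.2))) (fun k => (k.1, inr (inl k.2)))
    fun k => some (D.sg n (D.E k.2))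

/-- Data to side wires. -/
noncomputable def gV (n : Bool) : List (NI (Lz P I A K) σ Λ) :=
  gs (J := P × A) (fun k => (k.1, inr (inl k.2))) (fun k => (k.1, inl (!b, D.ta k.2)))
    fun _ => some (D.sg n D.one)

/-- Central wires to data. -/
noncomputable def gJ (n : Bool) : List (NI (Lz P I A K) σ Λ) :=
  gs (J := P × I × K) (fun k => (k.1, inl (b, k.2.1))) (fun k => (k.1, inr (inr k.2.2)))
    fun k => (D.J k.2.1 k.2.2).map (D.sg n)

/-- Data to central wires. -/
noncomputable def gG (n : Bool) : List (NI (Lz P I A K) σ Λ) :=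
  gs (J := P × I × K) (fun k => (k.1, inr (inr k.2.2))) (fun k => (k.1, inl (!b, k.2.1)))
    fun k => (D.G k.2.2 k.2.1).map (D.sg n)

/-- Gates and changes of the frames. -/
noncomputable def sched (g0 g1 g2 g3 g4 g5 g6 g7 : List (NI (Lz P I A K) σ Λ)) :
    List (NI (Lz P I A K) σ Λ) :=
  g0 ++ g1 ++ rs (D.rr μ b 0) ++ g2 ++ rs (D.rr μ b 1) ++ g3 ++ rs (D.rr μ b 2) ++ g4 ++
    rs (D.rr μ b 3) ++ g5 ++ rs (D.rr μ b 4) ++ g6 ++ rs (D.rr μ b 5) ++ g7

/-- The invocations. -/
noncomputable def inv : List (NI (Lz P I A K) σ Λ) :=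
  cond b
    (D.sched μ b (D.gV b false) (D.gG b false) (D.gE b true) (D.gJ b true) (D.gG b true)
      (D.gV b true) (D.gJ b false) (D.gE b false))
    (D.sched μ b (D.gE b true) (D.gJ b true) (D.gV b false) (D.gG b false) (D.gJ b false)
      (D.gE b false) (D.gG b true) (D.gV b true))

variable {D μ}

theorem bd_inv (hD : D.Ok) {B : Λ → Prop} (hA : ∀ p a, D.good a → B (μ p a)) :
    Bd B (D.inv μ b) (Fintype.card P * (2 * Fintype.card I * (D.g + 1) +
      Fintype.card A * (D.g + 2) + 3 * Fintype.card K * (D.g + 2)))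
      (4 * Fintype.card P * (Fintype.card A + Fintype.card I * Fintype.card K)) := by
  have hm : ∀ p (l : List L), (∀ a ∈ l, D.good a) → ∀ a ∈ l.map (μ p), B a := fun p l h a ha => by
    obtain ⟨a, h', rfl⟩ := List.mem_map.1 ha
    exact hA p a (h a h')
  have ht : ∀ p S, ∀ a ∈ [μ p (D.t S)], B a := fun p S a ha => by
    rw [List.mem_singleton.1 ha]; exact hA p _ (hD.gt S)
  have hr : ∀ k, Bd B (rs (D.rr μ b k) : List (NI (Lz P I A K) σ Λ))
      (∑ w, (D.rr μ b k w).length) 0 := fun k => bd_rs <| by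
    have h0 : ∀ z ∈ ([] : List (Option Bool × Λ)), B z.2 := fun z hz => nomatch hz
    have he := fun p => hm p _ hD.ge
    have h1 := fun p S => mem_up (hm p _ (hD.g1 S))
    rintro ⟨p, ⟨_ | _, S⟩ | x | i⟩
    · fin_cases k <;> first | exact h0 | exact h1 p S
    · fin_cases k <;> first | exact h0 | exact h1 p S
    · fin_cases k <;> first | exact h0 | exact mem_up (ht p _) | exact mem_up (hm p _ (hD.g2 x))
    · fin_cases k <;> first | exact h0 | exact mem_up (he p) | exact mem_dn (he p)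
  have hE : ∀ n, Bd B (D.gE (P := P) b n) 0 _ := fun n => bd_gs _ (by simp)
  have hV : ∀ n, Bd B (D.gV (P := P) b n) 0 _ := fun n => bd_gs _ (by simp)
  have hJ : ∀ n, Bd B (D.gJ (P := P) b n) 0 _ := fun n => bd_gs _ (by simp)
  have hG : ∀ n, Bd B (D.gG (P := P) b n) 0 _ := fun n => bd_gs _ (by simp)
  have hs : ∑ w, (D.rr μ b 0 w).length + ∑ w, (D.rr μ b 1 w).length + ∑ w, (D.rr μ b 2 w).length +
      ∑ w, (D.rr μ b 3 w).length + ∑ w, (D.rr μ b 4 w).length + ∑ w, (D.rr μ b 5 w).length =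
      ∑ w : Lz P I A K, lz (fun _ _ _ => D.g + 1) (fun _ _ => D.g + 2)
        (fun _ _ => 3 * (D.g + 2)) w := by
    simp only [← Finset.sum_add_distrib]
    refine Finset.sum_congr rfl ?_
    rintro ⟨p, ⟨_ | _, S⟩ | x | i⟩ -
    · simp [rr, lz, up, hD.l1]
    · simp [rr, lz, up, hD.l1]
    · simp [rr, lz, up, hD.l2]; omega
    · simp [rr, lz, up, dn, hD.le]; omega
  have hc : ∑ w : Lz P I A K, lz (fun _ _ _ => D.g + 1) (fun _ _ => D.g + 2)
      (fun _ _ => 3 * (D.g + 2)) w = Fintype.card P * (2 * Fintype.card I * (D.g + 1) +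
      Fintype.card A * (D.g + 2) + 3 * Fintype.card K * (D.g + 2)) := by
    simp [Fintype.sum_prod_type, lz]
    exact Or.inl (by ring)
  have key : ∀ {g0 g1 g2 g3 g4 g5 g6 g7 m0 m1 m2 m3 m4 m5 m6 m7}, Bd B g0 0 m0 → Bd B g1 0 m1 →
      Bd B g2 0 m2 → Bd B g3 0 m3 → Bd B g4 0 m4 → Bd B g5 0 m5 → Bd B g6 0 m6 → Bd B g7 0 m7 →
      Bd B (D.sched μ b g0 g1 g2 g3 g4 g5 g6 g7) _ (m0 + m1 + m2 + m3 + m4 + m5 + m6 + m7) :=
    fun h0 h1 h2 h3 h4 h5 h6 h7 => (((((((((((((h0.append h1).append (hr 0)).append h2).append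
      (hr 1)).append h3).append (hr 2)).append h4).append (hr 3)).append h5).append
      (hr 4)).append h6).append (hr 5)).append h7).cast ((by omega : _ = _).trans (hs.trans hc))
      (by omega)
  cases b
  · exact (key (hE _) (hJ _) (hV _) (hG _) (hJ _) (hE _) (hG _) (hV _)).cast rfl
      (le_of_eq (by simp; ring))
  · exact (key (hV _) (hG _) (hE _) (hJ _) (hG _) (hV _) (hJ _) (hE _)).cast rfl
      (le_of_eq (by simp; ring))

variable [CommRing R] [AddCommGroup G] [AddCommGroup M] [Module R M] [DecidableEq I]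
  [DecidableEq (Lz P I A K)] {C : Cx σ Λ R G M} (hS : D.Sc C.sc) (n : Bool) {l : Lz P I A K → G}

/-- Adding to the data of the side `b`. -/
def aD (b : Bool) (y : Lz P I A K → M) (z : P → I → M) : Lz P I A K → M :=
  lz (fun p b' S => y (p, inl (b', S)) + if b' = b then z p S else 0)
    (fun p x => y (p, inr (inl x))) fun p i => y (p, inr (inr i))

omit [Fintype P] [Fintype I] [DecidableEq (Lz P I A K)] in
include hS in
theorem sc_sg (s : σ) : C.sc (D.sg n s) = cond n (-1) 1 * C.sc s := by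
  cases n <;> simp [sg, hS.ng]

omit [Fintype P] [Fintype I] [DecidableEq (Lz P I A K)] in
include hS in
theorem osc_sg (o : Option σ) : osc C.sc (o.map (D.sg n)) = cond n (-1) 1 * osc C.sc o := by
  cases o <;> cases n <;> simp [osc, sg, hS.ng]

include hS

omit [Fintype I] in
theorem tr_gE (hl : ∀ p x, l (p, inl (b, D.sa x)) = l (p, inr (inl x))) :
    C.Tr (D.gE b n) l l fun y => aD b y fun p S =>
      ∑ x, (cond n (-1) 1 * D.co C.sc S x) • y (p, inr (inl x)) := by
  classical
  refine (Cx.tr_gs _ (by simp) fun k _ => hl _ _).cast fun y => funext ?_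
  rintro ⟨p, ⟨b', S⟩ | x | i⟩
  · by_cases e : b' = b <;>
      simp [aD, lz, co, Fintype.sum_prod_type, osc, sc_sg hS, ite_and, e, @eq_comm _ b b']
  · simp [aD, lz]
  · simp [aD, lz]

theorem tr_gJ (hl : ∀ p S i, l (p, inl (b, S)) = l (p, inr (inr i))) :
    C.Tr (D.gJ b n) l l fun y => aD b y fun p S =>
      ∑ i, (cond n (-1) 1 * osc C.sc (D.J S i)) • y (p, inr (inr i)) := by
  classical
  refine (Cx.tr_gs _ (by simp) fun k _ => hl _ _ _).cast fun y => funext ?_
  rintro ⟨p, ⟨b', S⟩ | x | i⟩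
  · by_cases e : b' = b <;>
      simp [aD, lz, Fintype.sum_prod_type, osc_sg hS, ite_and, e, @eq_comm _ b b']
  · simp [aD, lz]
  · simp [aD, lz]

omit [Fintype I] in
theorem tr_gV (hl : ∀ p x, l (p, inr (inl x)) = l (p, inl (!b, D.ta x))) :
    C.Tr (D.gV b n) l l fun y => lz (fun p b' S => y (p, inl (b', S)))
      (fun p x => y (p, inr (inl x)) + (cond n (-1) 1 : R) • y (p, inl (!b, D.ta x)))
      fun p i => y (p, inr (inr i)) := by
  classical
  refine (Cx.tr_gs _ (by simp) fun k _ => hl _ _).cast fun y => funext ?_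
  rintro ⟨p, ⟨b', S⟩ | x | i⟩
  · simp [lz]
  · simp [lz, Fintype.sum_prod_type, osc, sc_sg hS, hS.one, ite_and]
  · simp [lz]

theorem tr_gG (hl : ∀ p T i, l (p, inr (inr i)) = l (p, inl (!b, T))) :
    C.Tr (D.gG b n) l l fun y => lz (fun p b' S => y (p, inl (b', S)))
      (fun p x => y (p, inr (inl x))) fun p i => y (p, inr (inr i)) +
        ∑ T, (cond n (-1) 1 * osc C.sc (D.G i T)) • y (p, inl (!b, T)) := by
  classical
  refine (Cx.tr_gs _ (by simp) fun k _ => hl _ _ _).cast fun y => funext ?_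
  rintro ⟨p, ⟨b', S⟩ | x | i⟩
  · simp [lz]
  · simp [lz]
  · simp [lz, Fintype.sum_prod_type, osc_sg hS, ite_and]

omit [Fintype P] [DecidableEq (Lz P I A K)] in
theorem sum_id (S : I) (y : I → M) :
    ∑ i, osc C.sc (D.J S i) • ∑ T, osc C.sc (D.G i T) • y T +
      ∑ x, D.co C.sc S x • y (D.ta x) = y S := by
  have h1 : ∀ x, D.co C.sc S x • y (D.ta x) =
      ∑ T, (if D.ta x = T then (if D.sa x = S then C.sc (D.E x) else 0) else 0) • y T :=
    fun x => by simp only [co, ite_smul, zero_smul, Finset.sum_ite_eq, Finset.mem_univ, if_true]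
  simp only [h1, Finset.smul_sum, smul_smul]
  rw [Finset.sum_comm, Finset.sum_comm (s := (Finset.univ : Finset A)), ← Finset.sum_add_distrib]
  simp only [← Finset.sum_smul, ← add_smul, hS.id]
  simp

theorem tr_inv {μ : P → L → Λ} (D0 U : P → G) (he : ∀ p, ((D.e.map (μ p)).map C.ρ).sum = U p)
    (h1 : ∀ p T, (((D.c1 T).map (μ p)).map C.ρ).sum = U p - C.ρ (μ p (D.t T)))
    (h2 : ∀ p x, (((D.c2 x).map (μ p)).map C.ρ).sum =
      U p - C.ρ (μ p (D.t (D.sa x))) - C.ρ (μ p (D.t (D.ta x)))) :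
    C.Tr (D.inv μ b)
      (lz (fun p b' S => cond b' (D0 p + C.ρ (μ p (D.t S))) (D0 p)) (fun p _ => D0 p)
        fun p _ => D0 p)
      (lz (fun p b' S => cond b' (D0 p + U p) (D0 p + U p - C.ρ (μ p (D.t S))))
        (fun p _ => D0 p + U p) fun p _ => D0 p + U p)
      fun y => aD b y fun p S => cond b (-y (p, inl (false, S))) (y (p, inl (true, S))) := by
  set x0 := fun p b' S => cond b' (D0 p + C.ρ (μ p (D.t S))) (D0 p) with hx0
  set x1 := fun p b' (_ : I) => cond b' (D0 p + U p) (D0 p) with hx1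
  set x2 := fun p b' S => cond b' (D0 p + U p) (D0 p + U p - C.ρ (μ p (D.t S))) with hx2
  set a1 := fun p x => D0 p + C.ρ (μ p (D.t (cond b (D.sa x) (D.ta x)))) with ha1
  set a2 := fun p x => D0 p + U p - C.ρ (μ p (D.t (cond b (D.ta x) (D.sa x)))) with ha2
  have hr : ∀ (k : Fin 6) (l l' : Lz P I A K → G),
      (∀ w, l' w = l w + ((D.rr μ b k w).map (fv C.ρ)).sum) →
      C.Tr (rs (D.rr μ b k)) l l' fun y => y := fun k l l' h => Cx.tr_rs _ h
  have r0 := hr 0 (lz x0 (fun p _ => D0 p) fun p _ => D0 p) (lz x0 a1 fun p _ => D0 p) (by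
    rintro ⟨p, ⟨b', S⟩ | x | i⟩
    · simp [rr, lz]
    · simp [rr, lz, ha1, fv_up]
    · simp [rr, lz])
  have r1 := hr 1 (lz x0 a1 fun p _ => D0 p) (lz x1 a1 fun p _ => D0 p + U p) (by
    rintro ⟨p, ⟨_ | _, S⟩ | x | i⟩
    · simp [rr, lz, hx0, hx1]
    · simp only [rr, lz, hx0, hx1, cond, fv_up, h1]; abel
    · simp [rr, lz]
    · simp only [rr, lz, fv_up, he])
  have r2 := hr 2 (lz x1 a1 fun p _ => D0 p + U p) (lz x1 a1 fun p _ => D0 p) (by
    rintro ⟨p, ⟨b', S⟩ | x | i⟩
    · simp [rr, lz]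
    · simp [rr, lz]
    · simp only [rr, lz, fv_dn, he]; abel)
  have r3 := hr 3 (lz x1 a1 fun p _ => D0 p) (lz x2 a2 fun p _ => D0 p) (by
    rintro ⟨p, ⟨_ | _, S⟩ | x | i⟩
    · simp only [rr, lz, hx2, hx1, cond, fv_up, h1]; abel
    · simp [rr, lz, hx2, hx1]
    · cases b <;> simp only [rr, lz, ha1, ha2, cond, fv_up, h2 p x] <;> abel
    · simp [rr, lz])
  have r4 := hr 4 (lz x2 a2 fun p _ => D0 p) (lz x2 a2 fun p _ => D0 p + U p) (by
    rintro ⟨p, ⟨b', S⟩ | x | i⟩
    · simp [rr, lz]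
    · simp [rr, lz]
    · simp only [rr, lz, fv_up, he])
  have r5 := hr 5 (lz x2 a2 fun p _ => D0 p + U p)
      (lz x2 (fun p _ => D0 p + U p) fun p _ => D0 p + U p) (by
    rintro ⟨p, ⟨b', S⟩ | x | i⟩
    · simp [rr, lz]
    · simp [rr, lz, ha2, fv_up]
    · simp [rr, lz])
  cases b
  · refine (((((((((((((((tr_gE false hS true fun _ _ => rfl).append
      (tr_gJ false hS true fun _ _ _ => rfl)).append r0).append
      (tr_gV false hS false fun p x => by simp [lz, ha1, hx0])).append r1).append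
      (tr_gG false hS false fun _ _ _ => rfl)).append r2).append
      (tr_gJ false hS false fun _ _ _ => rfl)).append r3).append
      (tr_gE false hS false fun p x => by simp [lz, ha2, hx2])).append r4).append
      (tr_gG false hS true fun _ _ _ => rfl)).append r5).append
      (tr_gV false hS true fun _ _ => rfl))).cast fun y => funext ?_
    rintro ⟨p, ⟨_ | _, S⟩ | x | i⟩
    · have := sum_id hS S fun T => y (p, inl (true, T))
      simp [aD, lz, smul_add, Finset.sum_add_distrib]
      rw [← this]; abel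
    · simp [aD, lz]
    · simp [aD, lz]
    · simp [aD, lz]
  · refine (((((((((((((((tr_gV true hS false fun _ _ => rfl).append
      (tr_gG true hS false fun _ _ _ => rfl)).append r0).append
      (tr_gE true hS true fun p x => by simp [lz, ha1, hx0])).append r1).append
      (tr_gJ true hS true fun _ _ _ => rfl)).append r2).append
      (tr_gG true hS true fun _ _ _ => rfl)).append r3).append
      (tr_gV true hS true fun p x => by simp [lz, ha2, hx2])).append r4).append
      (tr_gJ true hS false fun _ _ _ => rfl)).append r5).append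
      (tr_gE true hS false fun _ _ => rfl))).cast fun y => funext ?_
    rintro ⟨p, ⟨_ | _, S⟩ | x | i⟩
    · simp [aD, lz]
    · have := sum_id hS S fun T => y (p, inl (false, T))
      simp [aD, lz, smul_add, Finset.sum_add_distrib]
      rw [← this]; abel
    · simp [aD, lz]
    · simp [aD, lz]

theorem tr_inv' {μ : P → L → Λ} (D0 U B : P → G) (he : ∀ p, ((D.e.map (μ p)).map C.ρ).sum = U p)
    (h1 : ∀ p T, (((D.c1 T).map (μ p)).map C.ρ).sum = U p - C.ρ (μ p (D.t T)))
    (h2 : ∀ p x, (((D.c2 x).map (μ p)).map C.ρ).sum =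
      U p - C.ρ (μ p (D.t (D.sa x))) - C.ρ (μ p (D.t (D.ta x)))) :
    C.Tr (D.inv μ b)
      (lz (fun p b' S => cond b' (D0 p + C.ρ (μ p (D.t S))) (D0 p)) (fun p _ => B p)
        fun p _ => B p)
      (lz (fun p b' S => cond b' (D0 p + U p) (D0 p + U p - C.ρ (μ p (D.t S))))
        (fun p _ => B p + U p) fun p _ => B p + U p)
      fun y => aD b y fun p S => cond b (-y (p, inl (false, S))) (y (p, inl (true, S))) := by
  intro y
  have h := tr_inv b hS D0 U he h1 h2
    (C.ph (lz (fun _ _ _ => 0) (fun p _ => B p - D0 p) fun p _ => B p - D0 p) y)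
  refine ((congrArg _ (funext fun w => ?_)).trans h).trans (funext fun w => ?_)
  · rcases w with ⟨p, ⟨b', S⟩ | x | i⟩ <;> simp [Cx.ph, lz, C.h0, ← C.ha]
  · rcases w with ⟨p, ⟨b', S⟩ | x | i⟩
    · simp [Cx.ph, lz, aD, C.h0]
    · simp only [Cx.ph, lz, aD, ← C.ha]
      congr 2
      abel
    · simp only [Cx.ph, lz, aD, ← C.ha]
      congr 2
      abel

end Dz

end Vale.Agent.N338X
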