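import Vale.Agent.P338Z.Net.QDes

/-!
P338, shared side wires (4): the triples of 48 points fall into 752 sunflowers with 23 petals.
-/

namespace Vale.Agent.N338X

open Vale.Agent.P338Z.Des

section sun

variable {ι J : Type} [Fintype ι] [DecidableEq ι] [Fintype J] [DecidableEq J]

/-- The completion of a sunflower. -/
theorem exists_qf (S : J → Tr ι) (c : ι) (p : J → ι) (hc : ∀ j, c ∈ (S j).1)
    (hp : ∀ i j, p i ∈ (S j).1 ↔ i = j) (hS : ∀ i j, i ≠ j → ((S i).1 ∩ (S j).1).card = 1)
    (h3 : Fintype.card J ≠ 3) : ∃ l : List (QL ι), l.length + Fintype.card J = Fintype.card ι ∧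
      (∀ a ∈ l, QP a) ∧ QDec (((Finset.univ : Finset J).toList.map fun j => qt (S j).1) ++ l) := by
  have hinj : Function.Injective p := fun i j e => (hp i j).1 (e ▸ (hp j j).2 rfl)
  let N : ι → ι → ℤ := fun i k => (if i = k then 6 else 0) -
    ∑ j, ind ℤ (S j).1 i * (3 * ind ℤ (S j).1 k - 1)
  have hN : ∀ i j, ∑ k, N i k * ind ℤ (S j).1 k = 0 := fun i j => by
    simp only [N, sub_mul (ite _ _ _), Finset.sum_mul, mul_assoc, Finset.sum_sub_distrib]
    rw [Finset.sum_comm (s := (Finset.univ : Finset ι))]
    simp only [← Finset.mul_sum, sum_row _ _ (S j).2]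
    rw [Finset.sum_eq_single j (fun j' _ h => by rw [hS j' j h]; simp) (by simp),
      Finset.inter_self, (S j).2]
    simp
    ring
  refine ⟨(Finset.univ \ Finset.univ.image p).toList.map fun k => (fun i => N i k, fun x =>
    (if x = k then 1 else 0) - ∑ j, ind ℤ (S j).1 k * if x = p j then 1 else 0), ?_, ?_,
    fun i x => ?_⟩
  · rw [List.length_map, Finset.length_toList, ← Finset.card_univ, ← Finset.card_univ,
      ← Finset.card_image_of_injective _ hinj,
      Finset.card_sdiff_add_card_eq_card (Finset.subset_univ _)]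
  · intro a ha
    obtain ⟨k, hk, rfl⟩ := List.mem_map.1 ha
    have hk' : ∀ j, k ≠ p j := fun j e => by simp [e] at hk
    refine ⟨⟨k, ?_⟩, ⟨k, by simp [hk']⟩⟩
    have h1 : N k k = 6 - 2 * ((Finset.univ.filter fun j => k ∈ (S j).1).card : ℤ) := by
      simp only [N, if_true, Finset.card_filter, Nat.cast_sum, Finset.mul_sum]
      congr 1
      exact Finset.sum_congr rfl fun j _ => by by_cases h : k ∈ (S j).1 <;> simp [ind, h]
    have h2 : (Finset.univ.filter fun j => k ∈ (S j).1).card ≠ 3 := by
      by_cases e : k = c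
      · simpa [e, hc] using h3
      · have : (Finset.univ.filter fun j => k ∈ (S j).1).card ≤ 1 :=
          Finset.card_le_one.2 fun i hi j hj => by
            by_contra h
            exact e (Finset.card_le_one.1 (hS i j h).le _ (Finset.mem_inter.2
              ⟨(Finset.mem_filter.1 hi).2, (Finset.mem_filter.1 hj).2⟩) _
              (Finset.mem_inter.2 ⟨hc i, hc j⟩))
        omega
    simp only [h1]
    omega
  · rw [List.map_append, List.sum_append, List.map_map, List.map_map, Finset.sum_map_toList,
      Finset.sum_map_toList]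
    simp only [Function.comp_def]
    rw [Finset.sum_subset (s₁ := Finset.univ \ Finset.univ.image p) (Finset.subset_univ _)
      fun k _ hk => ?_]
    · simp only [mul_sub, Finset.sum_sub_distrib, Finset.mul_sum, ← mul_assoc]
      rw [Finset.sum_comm (s := (Finset.univ : Finset ι))]
      simp only [← Finset.sum_mul, hN]
      simp [N, qt, mul_sub, Finset.sum_sub_distrib]
    · obtain ⟨j, rfl⟩ : ∃ j, p j = k := by simpa using hk
      simp only [ind, hp, ite_mul, one_mul, zero_mul, Finset.sum_ite_eq, Finset.mem_univ, if_true,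
        sub_self, mul_zero]

end sun

/-- First petal points. -/
def tabX : ℕ := 31428812047825399399156689372570192158071271877036801795714697570320225063904188475686817390708140226695065082590790544060475267183489088805991756449522951218809767888140548863093325644304708327124321042964412757219857239330027918273558417374943771365424815933799427974847790384822024082696000314795290574190346522793445916682951080468730846418330233418067863426375544420459555404379649760957653288085440731946306018269584594491153559528213959282542435884705726658845416186109218888669624905490135617074655535888570123720702900849031478058387490273474665923827563216109809548668154538228924705865597035328580242033346923154166828193816536404078987926704768578236545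

/-- Second petal points. -/
def tabY : ℕ := 3807279896335347800330414255953968658013608798853473471305110518311040460042331204719470430384923031521540731505163777993761007924676161016375900870627767099011036496103350870689528297626212605170656868799650086069318345622351259709478701405619396841261082775091440602001091086530330813396836107795598137755561056026007824093693901245165572932105626318311290505236768721791349902823721047828856679704168623880171294420160912625378707860417236118443849073097704232646366342424584481187750177555661815341582269570097875435588794443837461457964116044016181863452698472581546887425336156857044753685709055666420829656800803523209777965817667099642379592375537880855173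

/-- An entry of a table. -/
def ue (t r j : ℕ) : ℕ := (t >>> (6 * (23 * r + j))) % 64

theorem chkU : ∀ r : Fin 16, ∀ i : Fin 23, (0 < ue tabX r i ∧ ue tabX r i < 47 ∧ 0 < ue tabY r i ∧
    ue tabY r i < 47) ∧ ∀ j : Fin 23, ue tabX r i ≠ ue tabY r j ∧
      (i ≠ j → ue tabX r i ≠ ue tabX r j ∧ ue tabY r i ≠ ue tabY r j) := by decide +kernel

/-- The centre of a sunflower. -/
def cen (a r : ℕ) : ℕ := if r = 15 then 47 else a

/-- The code of an unordered pair. -/
def cd (u v : ℕ) : ℕ := min u v + 47 * max u v

/-- The three pairs of differences of a triple. -/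
def cd3 (k x y : ℕ) : ℕ := if k = 0 then cd x y else if k = 1 then cd (47 - x) ((y + 47 - x) % 47)
  else cd (47 - y) ((x + 47 - y) % 47)

/-- The code with a given number. -/
def cdn (n : ℕ) : ℕ := cd3 (n % 3) (ue tabX (n / 69) (n / 3 % 23)) (ue tabY (n / 69) (n / 3 % 23))

/-- The codes below `n` are new and different. -/
def chk (f : ℕ → ℕ) : ℕ → ℕ → Bool
  | 0, _ => true
  | n + 1, m =>
    match (if m.testBit (f n) then 0 else m ||| 2 ^ f n) with
    | 0 => false
    | k + 1 => chk f n (k + 1)

theorem chk_spec (f : ℕ → ℕ) (n : ℕ) : ∀ m, chk f n m = true →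
    (∀ i < n, m.testBit (f i) = false) ∧ ∀ i < n, ∀ j < n, f i = f j → i = j := by
  induction n with
  | zero => simp
  | succ n ih =>
    intro m h
    rw [chk] at h
    split at h
    · exact absurd h Bool.false_ne_true
    rename_i k hk
    split_ifs at hk with h1
    obtain ⟨h3, h4⟩ := ih _ h
    rw [← show m ||| 2 ^ f n = k + 1 from hk] at h3
    simp only [Nat.testBit_or, Bool.or_eq_false_iff, Nat.testBit_two_pow,
      decide_eq_false_iff_not] at h3
    refine ⟨fun i hi => ?_, fun i hi j hj e => ?_⟩
    · rcases Nat.lt_succ_iff_lt_or_eq.1 hi with hi | rfl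
      exacts [(h3 i hi).1, Bool.eq_false_iff.2 h1]
    · rcases Nat.lt_succ_iff_lt_or_eq.1 hi with hi | rfl <;>
        rcases Nat.lt_succ_iff_lt_or_eq.1 hj with hj | rfl
      exacts [h4 i hi j hj e, absurd e.symm (h3 i hi).2, absurd e (h3 j hj).2, rfl]

theorem chk_cdn : chk cdn 1035 0 = true := by decide +kernel

theorem chkY : ∀ i : Fin 23, ue tabX 15 i + ue tabY 15 i = 47 := by decide +kernel

/-- The families. -/
abbrev QF : Type := Fin 47 × Fin 16

/-- The centre. -/
def pc (φ : QF) : Fin 48 := if φ.2 = 15 then 47 else φ.1.castSucc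

/-- A petal point. -/
def pt (t : ℕ) (φ : QF) (i : Fin 23) : Fin 48 := ⟨(φ.1 + ue t φ.2 i) % 47, by omega⟩

theorem pts (φ : QF) (i j : Fin 23) : pc φ ≠ pt tabX φ i ∧ pc φ ≠ pt tabY φ i ∧
    pt tabX φ i ≠ pt tabY φ j ∧ (i ≠ j → pt tabX φ i ≠ pt tabX φ j ∧ pt tabY φ i ≠ pt tabY φ j) := by
  obtain ⟨h1, h2⟩ := chkU φ.2 i
  have h3 := (chkU φ.2 j).1
  obtain ⟨h4, h5⟩ := h2 j
  have h6 := φ.1.2
  simp only [pc, pt, Ne, Fin.ext_iff, apply_ite Fin.val, Fin.val_castSucc]
  refine ⟨?_, ?_, by omega, fun h => ?_⟩
  · split_ifs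
    · show ¬47 = _
      omega
    · omega
  · split_ifs
    · show ¬47 = _
      omega
    · omega
  · have := h5 fun e => h (congrArg Fin.val e)
    omega

/-- The triples. -/
def qtr (s : QF × Fin 23) : Tr (Fin 48) :=
  ⟨{pc s.1, pt tabX s.1 s.2, pt tabY s.1 s.2}, Finset.card_eq_three.2 ⟨_, _, _, (pts _ _ s.2).1,
    (pts _ _ s.2).2.1, (pts _ _ _).2.2.1, rfl⟩⟩

theorem cd_of {p : Prop} {x y u v : ℕ} (h : p → x = u ∧ y = v ∨ x = v ∧ y = u) (hp : p) :
    cd u v = cd x y := by
  rcases h hp with ⟨rfl, rfl⟩ | ⟨rfl, rfl⟩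
  · rfl
  · rw [cd, cd, min_comm, max_comm]

theorem pairs {a a' x y x' y' : ℕ} (ha : a < 47) (ha' : a' < 47)
    (u1 : 0 < x ∧ x < 47 ∧ 0 < y ∧ y < 47) (v1 : 0 < x' ∧ x' < 47 ∧ 0 < y' ∧ y' < 47) (_u3 : x ≠ y)
    (v3 : x' ≠ y')
    (h2 : (a' + x') % 47 = a ∨ (a' + x') % 47 = (a + x) % 47 ∨ (a' + x') % 47 = (a + y) % 47)
    (h3 : (a' + y') % 47 = a ∨ (a' + y') % 47 = (a + x) % 47 ∨ (a' + y') % 47 = (a + y) % 47) :
    (a' = a → x' = x ∧ y' = y ∨ x' = y ∧ y' = x) ∧
    (a' = (a + x) % 47 → x' = 47 - x ∧ y' = (y + 47 - x) % 47 ∨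
      x' = (y + 47 - x) % 47 ∧ y' = 47 - x) ∧
    (a' = (a + y) % 47 → x' = 47 - y ∧ y' = (x + 47 - y) % 47 ∨
      x' = (x + 47 - y) % 47 ∧ y' = 47 - y) := by
  have m : ∀ z, z < 94 → z % 47 < 47 ∧ (z % 47 = z ∨ z % 47 + 47 = z) := fun z hz => by omega
  have m1 := m (a + x) (by omega)
  have m2 := m (a + y) (by omega)
  have m3 := m (a' + x') (by omega)
  have m4 := m (a' + y') (by omega)
  have m5 := m (y + 47 - x) (by omega)
  have m6 := m (x + 47 - y) (by omega)
  generalize (a + x) % 47 = X at *
  generalize (a + y) % 47 = Y at *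
  generalize (a' + x') % 47 = X' at *
  generalize (a' + y') % 47 = Y' at *
  generalize (y + 47 - x) % 47 = Z at *
  generalize (x + 47 - y) % 47 = Z' at *
  clear m
  refine ⟨fun h => ?_, fun h => ?_, fun h => ?_⟩
  · clear m5 m6
    omega
  · clear m6
    omega
  · clear m5
    omega

theorem qtr_inj : Function.Injective qtr := by
  rintro ⟨⟨a, r⟩, i⟩ ⟨⟨a', r'⟩, i'⟩ h
  have h0 := congrArg Subtype.val h
  have m : ∀ z, z ∈ (qtr ((a', r'), i')).1 → z ∈ (qtr ((a, r), i)).1 := fun z hz => h0 ▸ hz
  have m' : ∀ z, z ∈ (qtr ((a, r), i)).1 → z ∈ (qtr ((a', r'), i')).1 := fun z hz => h0 ▸ hz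
  have h1 := m (pc (a', r')) (by simp [qtr])
  have h2 := m (pt tabX (a', r') i') (by simp [qtr])
  have h3 := m (pt tabY (a', r') i') (by simp [qtr])
  have h4 := m' (pc (a, r)) (by simp [qtr])
  obtain ⟨u1, u2⟩ := chkU r i
  obtain ⟨v1, v2⟩ := chkU r' i'
  have u3 := (u2 i).1
  have v3 := (v2 i').1
  have ha := a.2
  have ha' := a'.2
  have e47 : ((47 : Fin 48) : ℕ) = 47 := rfl
  simp only [qtr, Finset.mem_insert, Finset.mem_singleton, pc, pt, Fin.ext_iff (n := 48),
    apply_ite Fin.val, Fin.val_castSucc, e47] at h1 h2 h3 h4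
  by_cases e : r = 15
  · have e' : r' = 15 := by
      by_contra e'
      rw [if_pos e, if_neg e'] at h4
      omega
    subst e e'
    have y1 := chkY i
    have y2 := chkY i'
    have u4 := u2 i'
    have v4 := (v2 i).1
    have e15 : ((15 : Fin 16) : ℕ) = 15 := rfl
    simp only [if_true, e15] at *
    have h5 : (a : ℕ) = a' := by omega
    have h6 : i = i' := by
      by_contra h6
      have := u4.2 h6
      omega
    rw [Fin.ext h5, h6]
  · have e' : ¬r' = 15 := fun e' => by
      rw [if_pos e', if_neg e] at h1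
      omega
    rw [if_neg e] at h1 h2 h3
    rw [if_neg e'] at h1
    have r1 : (r : ℕ) < 15 := by have := r.2; have : (r : ℕ) ≠ 15 := fun h => e (Fin.ext h); omega
    have r2 : (r' : ℕ) < 15 := by
      have := r'.2; have : (r' : ℕ) ≠ 15 := fun h => e' (Fin.ext h); omega
    have hi := i.2
    have hi' := i'.2
    have key : ∀ k < 3, cd3 k (ue tabX r i) (ue tabY r i) = cd (ue tabX r' i') (ue tabY r' i') →
        69 * r.1 + 3 * i.1 + k = 69 * r'.1 + 3 * i'.1 := fun k hk h => by
      refine (chk_spec _ _ _ chk_cdn).2 _ (by omega) _ (by omega) ?_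
      rw [cdn, cdn, show (69 * r.1 + 3 * i.1 + k) % 3 = k by omega,
        show (69 * r.1 + 3 * i.1 + k) / 69 = r.1 by omega,
        show (69 * r.1 + 3 * i.1 + k) / 3 % 23 = i.1 by omega,
        show (69 * r'.1 + 3 * i'.1) % 3 = 0 by omega,
        show (69 * r'.1 + 3 * i'.1) / 69 = r'.1 by omega,
        show (69 * r'.1 + 3 * i'.1) / 3 % 23 = i'.1 by omega, h]
      rfl
    rcases h1 with h1 | h1 | h1
    · have := key 0 (by norm_num) (cd_of (pairs ha ha' u1 v1 u3 v3 h2 h3).1 h1)
      rw [Fin.ext h1, show r = r' from Fin.ext (by omega), show i = i' from Fin.ext (by omega)]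
    · have := key 1 (by norm_num) (cd_of (pairs ha ha' u1 v1 u3 v3 h2 h3).2.1 h1)
      omega
    · have := key 2 (by norm_num) (cd_of (pairs ha ha' u1 v1 u3 v3 h2 h3).2.2 h1)
      omega

end Vale.Agent.N338X
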