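import Vale.Agent.N338X.Gen
import Vale.Agent.N338X.QFam
import Vale.Agent.P338Z.Net.QNet

/-!
P338, shared side wires (5): the routing network on `2 ^ 47` wires.
-/

namespace Vale.Agent.N338X

open Vale.Agent.P338Z Vale.Agent.P338Z.Net Vale.Agent.P338Z.Des Vale.Agent.P338Z.Net.Qn

theorem sum_pairs {I R : Type} [Fintype I] [DecidableEq I] [AddCommMonoid R] (p : I × I → Prop)
    [DecidablePred p] (e : I × I → R) (S T : I) :
    ∑ x : {x // p x}, (if x.1.2 = T then (if x.1.1 = S then e x.1 else 0) else 0) =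
      if p (S, T) then e (S, T) else 0 := by
  split_ifs with h
  · rw [Finset.sum_eq_single ⟨(S, T), h⟩, if_pos rfl, if_pos rfl]
    · rintro ⟨⟨x, y⟩, h3⟩ - hne
      split_ifs with e1 e2
      · exact absurd (Subtype.ext (Prod.ext e2 e1)) hne
      · rfl
      · rfl
    · exact fun h3 => absurd (Finset.mem_univ _) h3
  · refine Finset.sum_eq_zero ?_
    rintro ⟨⟨x, y⟩, h3⟩ -
    split_ifs with e1 e2
    · exact absurd (show p (S, T) from e1 ▸ e2 ▸ h3) h
    · rfl
    · rfl

/-- The indices. -/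
abbrev QX : Type := QF × Fin 23

/-- The pairs which need a side wire. -/
abbrev QA : Type := {x : QX × QX // ((qtr x.1).1 ∩ (qtr x.2).1).card = 1}

section

variable {I : Type} [Fintype I] [DecidableEq I] {τ : I → Tr (Fin 48)} (hτ : Function.Injective τ)

include hτ

omit [DecidableEq I] in
theorem card_through (z : Fin 48) : (Finset.univ.filter fun T => z ∈ (τ T).1).card ≤ 1081 := by
  have h : ((Finset.univ.erase z).powersetCard 2).card = 1081 := by
    rw [Finset.card_powersetCard, Finset.card_erase_of_mem (Finset.mem_univ z), Finset.card_univ,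
      Fintype.card_fin]
    rfl
  rw [← h]
  refine Finset.card_le_card_of_injOn (fun T => (τ T).1.erase z) (fun T hT => ?_)
    fun S hS T hT e => hτ (Subtype.ext ?_)
  · refine Finset.mem_coe.2 (Finset.mem_powersetCard.2
      ⟨Finset.erase_subset_erase _ (Finset.subset_univ _), ?_⟩)
    rw [Finset.card_erase_of_mem (Finset.mem_filter.1 hT).2, (τ T).2]
  · rw [← Finset.insert_erase (Finset.mem_filter.1 hS).2,
      ← Finset.insert_erase (Finset.mem_filter.1 hT).2]
    exact congrArg _ e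

theorem card_pairs : Fintype.card {x : I × I // ((τ x.1).1 ∩ (τ x.2).1).card = 1} ≤
    Fintype.card I * 3243 := by
  rw [Fintype.card_congr (Equiv.subtypeProdEquivSigmaSubtype
    fun x y : I => ((τ x).1 ∩ (τ y).1).card = 1), Fintype.card_sigma]
  refine (Finset.sum_le_card_nsmul _ _ 3243 fun S _ => ?_).trans (le_of_eq (by simp))
  rw [Fintype.card_subtype]
  refine (Finset.card_le_card (t := (τ S).1.biUnion fun z =>
    Finset.univ.filter fun T => z ∈ (τ T).1) fun T hT => ?_).trans
    ((Finset.card_biUnion_le_card_mul _ _ _ fun z _ => card_through hτ z).trans (by rw [(τ S).2]))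
  obtain ⟨z, hz⟩ := Finset.card_eq_one.1 (Finset.mem_filter.1 hT).2
  have h := Finset.mem_inter.1 (hz ▸ Finset.mem_singleton_self z)
  exact Finset.mem_biUnion.2 ⟨z, h.1, Finset.mem_filter.2 ⟨Finset.mem_univ _, h.2⟩⟩

end

theorem card_QA : Fintype.card QA ≤ 17296 * 3243 :=
  (card_pairs qtr_inj).trans (le_of_eq (by simp))

theorem exists_cf (φ : QF) : ∃ l : List (QL (Fin 48)), l.length = 25 ∧ (∀ a ∈ l, QP a) ∧
    QDec (((Finset.univ : Finset (Fin 23)).toList.map fun j => qt (qtr (φ, j)).1) ++ l) := by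
  obtain ⟨l, h1, h2⟩ := exists_qf (fun j => qtr (φ, j)) (pc φ) (pt tabX φ)
    (fun j => by simp [qtr]) (fun i j => by
      obtain ⟨h1, -, h2, h3⟩ := pts φ i j
      refine ⟨fun h => ?_, fun h => by simp [qtr, h]⟩
      by_contra h4
      simp [qtr, h1.symm, h2, (h3 h4).1] at h) (fun i j h => by
      obtain ⟨h1, h2, h3, h4⟩ := pts φ i j
      have h5 := (pts φ j i).2.2.1
      obtain ⟨h6, h7, -⟩ := pts φ j j
      obtain ⟨h8, h9⟩ := h4 h
      refine Finset.card_eq_one.2 ⟨pc φ, Finset.ext fun z => ?_⟩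
      simp only [qtr, Finset.mem_inter, Finset.mem_insert, Finset.mem_singleton]
      refine ⟨?_, fun e => ⟨Or.inl e, Or.inl e⟩⟩
      rintro ⟨e | e | e, e' | e' | e'⟩ <;> first | exact e | exact e' | skip
      exacts [absurd (e.symm.trans e') h8, absurd (e.symm.trans e') h3,
        absurd (e'.symm.trans e) h5, absurd (e.symm.trans e') h9]) (by simp)
  simp only [Fintype.card_fin] at h1
  exact ⟨l, by omega, h2⟩

theorem qnet47 : ∃ (Δ : ℕ) (prog : List QI), 0 < Δ ∧ 216 ∣ Δ ∧ prog.length < 2 ^ 80 ∧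
    QNet 47 (48 ^ 3) Δ prog ∧
    (prog.filter fun c => !c.1).length + 1038654410752 ≤ 2 ^ 47 * 48 ^ 3 := by
  obtain ⟨ε⟩ : Nonempty (Fin (48 ^ 3) ≃ Fin 48 × Fin 48 × Fin 48) :=
    ⟨Fintype.equivOfCardEq (by simp only [Fintype.card_fin, Fintype.card_prod]; norm_num)⟩
  choose c1 a1 a2 a3 using fun T : QX => exists_qc1 (qtr T)
  choose c2 b1 b2 b3 using fun x : QA => exists_qc2 (qtr x.1.1) (qtr x.1.2) x.2
  choose cf d1 d2 d3 using exists_cf
  simp only [Fintype.card_fin] at a1 b1
  let D : Dz QX QA (Fin 48) (QL (Fin 48)) Unit := ⟨46, fun T => qt (qtr T).1,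
    Finset.univ.toList.map qe, c1, c2, fun x => x.1.1, fun x => x.1.2,
    fun S i => if i ∈ (qtr S).1 then some () else none,
    fun i T => if i ∈ (qtr T).1 then some () else none, fun _ => (), (), id, QP⟩
  have hok : D.Ok := ⟨by simp [D], fun T => by have := a1 T; simp only [D]; omega,
    fun x => by have := b1 x; simp only [D]; omega, fun T => qp_t _, fun a ha => by
      obtain ⟨k, -, rfl⟩ := List.mem_map.1 ha
      exact qp_e k, a2, b2⟩
  have hsc : D.Sc fun _ => (1 : ZMod 2) := ⟨rfl, fun _ => by decide, fun S T => by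
    refine (congrArg₂ (· + ·) ?_ ?_).trans
      ((qscal (qtr S) (qtr T)).trans (if_congr qtr_inj.eq_iff rfl rfl))
    · simp only [D, apply_ite (osc _), ind]
      rfl
    · exact sum_pairs (fun x : QX × QX => ((qtr x.1).1 ∩ (qtr x.2).1).card = 1)
        (fun _ => (1 : ZMod 2)) S T⟩
  obtain ⟨prog, hwf, hc, hc', -, hsem⟩ := gen D cf 47 752 23 (17296 * 3243) 48 25 (by simp)
    (Fintype.card_fin _) card_QA (Fintype.card_fin _) hok d1 rfl d2 (by norm_num)
  rw [show D.g = 46 from rfl] at hc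
  rw [show D.good = QP from rfl] at hwf
  obtain ⟨Δ, h1, h2, h3⟩ := exists_mult ((prog.map (cq ε)).flatMap fun c => c.2.2.2.1 ++ c.2.2.2.2)
  have hcnt : ((prog.map (cq ε)).filter fun c => !c.1).length + 1038654410752 ≤
      2 ^ 47 * 48 ^ 3 := by
    rw [← List.countP_eq_length_filter, List.countP_map]
    simp only [Function.comp_def, cq_fst]
    norm_num at hc ⊢
    omega
  refine ⟨Δ, prog.map (cq ε), h1, h2, ?_, ⟨fun c hc => ?_, fun c hc h0 => ?_, by omega,
    fun Q hQ M _ hM Φ h0 hadd x w hw => ?_⟩, hcnt⟩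
  · rw [List.length_map, List.length_eq_countP_add_countP NI.isG]
    simp only [Bool.not_eq_true, Bool.decide_eq_false]
    norm_num at hc hc' ⊢
    omega
  · obtain ⟨q, hq, rfl⟩ := List.mem_map.1 hc
    have h := hwf q hq
    cases q with
    | gate i j s => exact ⟨h.1, fun _ => h.2⟩
    | call i n l => exact ⟨h.1, fun h' => absurd h' Bool.false_ne_true⟩
    | dbl i l => exact ⟨h.1, fun h' => absurd h' Bool.false_ne_true⟩
  · have h4 := fun x hx => h3 x (List.mem_flatMap.2 ⟨c, hc, hx⟩)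
    obtain ⟨q, hq, rfl⟩ := List.mem_map.1 hc
    have h := hwf q hq
    cases q with
    | gate i j s => exact absurd h0.symm Bool.false_ne_true
    | call i n l =>
      have h5 := cl_lab ε i (s := if n then -1 else 1) (by cases n <;> simp) h.2
      exact ⟨h5.1, h5.2.1, h5.2.2.1, h5.2.2.2, h4⟩
    | dbl i l =>
      have h5 := cl_lab ε i (s := 2) (by norm_num) h.2
      exact ⟨h5.1, h5.2.1, h5.2.2.1, h5.2.2.2, h4⟩
  · let _ : Module (ZMod 2) M := AddCommGroup.zmodModule fun z => (two_nsmul z).trans (hM z)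
    have hco : Nat.Coprime 216 Q :=
      (Nat.coprime_of_mul_modEq_one 1 (by simpa using hQ.of_dvd h2)).symm
    have h := hsem (ZMod 2) _ hsc _ _ (fun T => dec_of ε Q qdec_e (a3 T))
      (fun x => dec_of ε Q qdec_e (b3 x)) (fun φ => dec_of ε Q qdec_e (d3 φ)) M
      (fun g => (Φ g).toZModLinearMap 2) h0 hadd x w hw
    rw [full_eq ε hco (e := D.e) qdec_e] at h
    rw [List.foldl_map]
    simp only [qrun_cq]
    exact h

end Vale.Agent.N338X
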