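import Vale.Agent.N338X.Inv

/-!
P338, shared side wires (2): a stage runs in rounds, and all rounds use the same side wires.
-/

namespace Vale.Agent.N338X

open Sum Vale.Agent.P338Z.Net

variable {F J A K L σ Λ R G M α : Type} {n : ℕ}

/-- All wires: data, auxiliary wires of the three stages, idle wires. -/
abbrev Gz (F J A K : Type) (n : ℕ) : Type :=
  (Bool × (F × J) × (F × J) × (F × J)) ⊕ (Fin 3 × (F × F) × (A ⊕ K)) ⊕ Fin n

/-- Functions on all wires. -/
def gz (d : Bool → (F × J) × (F × J) × (F × J) → α) (a : Fin 3 → F × F → α) (z : α) :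
    Gz F J A K n → α
  | inl (b, s) => d b s
  | inr (inl (j, p, _)) => a j p
  | inr (inr _) => z

/-- The group of a round. -/
def pr (r : J × J) (p : F × F) : (F × J) × (F × J) := ((p.1, r.1), (p.2, r.2))

/-- The three ways to split an index. -/
abbrev Sp (I : Type) : Type := (I × I) × I ≃ I × I × I

/-- The wires of the stage `j` in the round `r`. -/
def ez (n : ℕ) (j : Fin 3) (q : Sp (F × J)) (r : J × J) : Lz (F × F) (F × J) A K → Gz F J A K n
  | (p, inl (b, S)) => inl (b, q (pr r p, S))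
  | (p, inr z) => inr (inl (j, p, z))

theorem ez_inj (j : Fin 3) (q : Sp (F × J)) (r : J × J) :
    Function.Injective (ez (A := A) (K := K) n j q r) := by
  rintro ⟨⟨p, p1⟩, ⟨b, S⟩ | z⟩ ⟨⟨p', p1'⟩, ⟨b', S'⟩ | z'⟩ h <;> simp_all [ez, pr]

/-- The round of an index. -/
def rd (q : Sp (F × J)) (s : (F × J) × (F × J) × (F × J)) : J × J :=
  ((q.symm s).1.1.2, (q.symm s).1.2.2)

theorem rd_pr (q : Sp (F × J)) (r : J × J) (p : F × F) (S : F × J) : rd q (q (pr r p, S)) = r := by
  simp [rd, pr]

/-- Adding to the data of the side `b`. -/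
def gD [AddCommGroup M] (b : Bool) (y : Gz F J A K n → M) (z : (F × J) × (F × J) × (F × J) → M) :
    Gz F J A K n → M
  | inl (b', s) => y (inl (b', s)) + if b' = b then z s else 0
  | inr w => y (inr w)

namespace Dz

variable [Fintype F] [Fintype J] [Fintype A] [Fintype K]

/-- The rounds of a stage. -/
noncomputable def stg (D : Dz (F × J) A K L σ) (n : ℕ) (μ : (F × J) × (F × J) → L → Λ) (b : Bool)
    (j : Fin 3) (q : Sp (F × J)) (l : List (J × J)) : List (NI (Gz F J A K n) σ Λ) :=
  l.flatMap fun r => (D.inv (fun p => μ (pr r p)) b).map (NI.map (ez n j q r))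

variable {D : Dz (F × J) A K L σ} {μ : (F × J) × (F × J) → L → Λ}

theorem bd_stg (hD : D.Ok) {B : Λ → Prop} (hA : ∀ p a, D.good a → B (μ p a)) (b : Bool) (j : Fin 3)
    (q : Sp (F × J)) (l : List (J × J)) :
    Bd B (D.stg n μ b j q l) (l.length * (Fintype.card (F × F) *
      (2 * Fintype.card (F × J) * (D.g + 1) + Fintype.card A * (D.g + 2) +
        3 * Fintype.card K * (D.g + 2)))) (l.length * (4 * Fintype.card (F × F) *
          (Fintype.card A + Fintype.card (F × J) * Fintype.card K))) := by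
  induction l with
  | nil => exact ⟨by simp [stg], by simp [stg], by simp [stg]⟩
  | cons r l ih =>
    exact (((bd_inv b hD fun p a h => hA (pr r p) a h).map (ez_inj j q r)).append ih).cast
      (by rw [List.length_cons]; ring) (le_of_eq (by rw [List.length_cons]; ring))

variable [CommRing R] [AddCommGroup G] [AddCommGroup M] [Module R M] [DecidableEq F]
  [DecidableEq J] [DecidableEq (Gz F J A K n)] {C : Cx σ Λ R G M} (hS : D.Sc C.sc) (b : Bool)
  (j : Fin 3) (q : Sp (F × J)) (D0 U : (F × J) × (F × J) → G)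
  (he : ∀ p, ((D.e.map (μ p)).map C.ρ).sum = U p)
  (h1 : ∀ p T, (((D.c1 T).map (μ p)).map C.ρ).sum = U p - C.ρ (μ p (D.t T)))
  (h2 : ∀ p x, (((D.c2 x).map (μ p)).map C.ρ).sum =
    U p - C.ρ (μ p (D.t (D.sa x))) - C.ρ (μ p (D.t (D.ta x))))
  {d' : Bool → (F × J) × (F × J) × (F × J) → G}
  (hd' : ∀ b' p S, d' b' (q (p, S)) = cond b' (D0 p + U p) (D0 p + U p - C.ρ (μ p (D.t S)))) {z : G}

include hS he h1 h2 hd'

theorem tr_round (r : J × J) {d : Bool → (F × J) × (F × J) × (F × J) → G} {a : Fin 3 → F × F → G}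
    (hd : ∀ b' p S, d b' (q (pr r p, S)) =
      cond b' (D0 (pr r p) + C.ρ (μ (pr r p) (D.t S))) (D0 (pr r p))) :
    C.Tr ((D.inv (fun p => μ (pr r p)) b).map (NI.map (ez n j q r))) (gz d a z)
      (gz (fun b' s => if rd q s = r then d' b' s else d b' s)
        (fun j' p => a j' p + if j' = j then U (pr r p) else 0) z)
      fun y => gD b y fun s => if rd q s = r then
        cond b (-y (inl (false, s))) (y (inl (true, s))) else 0 := by
  classical
  have h := tr_inv' b hS (μ := fun p => μ (pr r p)) (fun p => D0 (pr r p)) (fun p => U (pr r p))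
    (a j) (fun p => he _) (fun p => h1 _) fun p => h2 _
  refine Cx.Tr.emb (ez_inj j q r) (a := fun y => aD b y fun p S =>
    cond b (-y (p, inl (false, S))) (y (p, inl (true, S)))) ?_ ?_ ?_
  · convert h using 1 <;> funext w <;> rcases w with ⟨p, ⟨b', S⟩ | x | i⟩ <;>
      simp only [ez, gz, lz, rd_pr, if_true, hd, hd']
  · rintro y ⟨p, ⟨b', S⟩ | x | i⟩
    · simp only [ez, gD, aD, lz, rd_pr, if_true]
    · rfl
    · rfl
  · rintro (⟨b', s⟩ | ⟨j', p, w⟩ | i) hw
    · have h3 : ¬rd q s = r := fun e => hw (((q.symm s).1.1.1, (q.symm s).1.2.1),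
        inl (b', (q.symm s).2)) (by subst e; simp [ez, pr, rd])
      exact ⟨by simp only [gz, if_neg h3], fun y => by simp [gD, h3]⟩
    · have h3 : ¬j' = j := fun e => hw (p, inr w) (by rw [e]; rfl)
      exact ⟨by simp [gz, h3], fun _ => rfl⟩
    · exact ⟨rfl, fun _ => rfl⟩

theorem tr_rounds (l : List (J × J)) (hl : l.Nodup) :
    ∀ (d : Bool → (F × J) × (F × J) × (F × J) → G) (a : Fin 3 → F × F → G),
      (∀ r ∈ l, ∀ b' p S, d b' (q (pr r p, S)) =
        cond b' (D0 (pr r p) + C.ρ (μ (pr r p) (D.t S))) (D0 (pr r p))) →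
      C.Tr (D.stg n μ b j q l) (gz d a z) (gz (fun b' s => if rd q s ∈ l then d' b' s else d b' s)
        (fun j' p => a j' p + if j' = j then (l.map fun r => U (pr r p)).sum else 0) z)
        fun y => gD b y fun s => if rd q s ∈ l then
          cond b (-y (inl (false, s))) (y (inl (true, s))) else 0 := by
  induction l with
  | nil =>
    intro d a _ y
    funext w
    rcases w with ⟨b', s⟩ | ⟨j', p, w⟩ | i <;> simp [stg, Cx.ex, Cx.ph, gz, gD]
  | cons r l ih =>
    intro d a hd
    have hn := List.nodup_cons.1 hl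
    have h3 := (tr_round (n := n) hS b j q D0 U he h1 h2 hd' (z := z) (a := a) r
      (hd r List.mem_cons_self)).append (ih hn.2 _ _ fun r' hr b' p S => by
        rw [rd_pr, if_neg fun e : r' = r => hn.1 (e ▸ hr), hd r' (List.mem_cons_of_mem _ hr)])
    intro y
    refine (h3 y).trans (funext fun w => ?_)
    rcases w with ⟨b', s⟩ | ⟨j', p, w⟩ | i
    · by_cases e : rd q s = r
      · have e' : rd q s ∉ l := e ▸ hn.1
        simp [Cx.ph, gz, gD, e, hn.1]
      · cases b <;> cases b' <;> simp [Cx.ph, gz, gD, e]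
    · by_cases e : j' = j <;> simp [Cx.ph, gz, gD, e, add_assoc]
    · rfl

theorem tr_stage {d : Bool → (F × J) × (F × J) × (F × J) → G} {a a' : Fin 3 → F × F → G}
    (hd : ∀ b' p S, d b' (q (p, S)) = cond b' (D0 p + C.ρ (μ p (D.t S))) (D0 p))
    (ha : ∀ j' p, a' j' p = a j' p + if j' = j then ∑ r, U (pr r p) else 0) :
    C.Tr (D.stg n μ b j q Finset.univ.toList) (gz d a z) (gz d' a' z)
      fun y => gD b y fun s => cond b (-y (inl (false, s))) (y (inl (true, s))) := by
  have h := tr_rounds (n := n) hS b j q D0 U he h1 h2 hd' (z := z) _ (Finset.nodup_toList Finset.univ) d a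
    fun _ _ _ _ _ => hd ..
  simp only [Finset.mem_toList, Finset.mem_univ, if_true, Finset.sum_map_toList, ← ha] at h
  exact h

end Dz

end Vale.Agent.N338X
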